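import Vale.Agent.P078.Orbit.Defs
import Vale.Agent.P078.Single.Atom

/-!
# Algebra of partial normalisers
-/

namespace Vale.Agent.P078.General.Orbit

open scoped InnerProductSpace Topology ComplexOrder
open Filter Vale.Agent.P078.General.Single

universe u

variable {H : Type u} [NormedAddCommGroup H] [InnerProductSpace ℂ H] [CompleteSpace H]
variable {M A : VonNeumannAlgebra H} {φ : (H →L[ℂ] H) →ₗ[ℂ] ℂ} {v w : H →L[ℂ] H}

namespace IsPN

theorem src_memA (hv : IsPN M A v) : star v * v ∈ A := by
  simpa using hv.conj' 1 (one_mem A)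

theorem tgt_memA (hv : IsPN M A v) : v * star v ∈ A := by
  simpa using hv.conj 1 (one_mem A)

theorem isStarProjection_src (hv : IsPN M A v) : IsStarProjection (star v * v) := by
  refine ⟨?_, IsSelfAdjoint.star_mul_self v⟩
  show star v * v * (star v * v) = star v * v
  rw [mul_assoc, hv.pi]

theorem tgt_mul (hv : IsPN M A v) : v * star v * v = v := by rw [mul_assoc]; exact hv.pi

theorem star_mul_tgt (hv : IsPN M A v) : star v * (v * star v) = star v := by
  conv_rhs => rw [← hv.tgt_mul, star_mul, star_mul, star_star]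

theorem src_mul_star (hv : IsPN M A v) : star v * v * star v = star v := by
  rw [mul_assoc]; exact hv.star_mul_tgt

theorem isStarProjection_tgt (hv : IsPN M A v) : IsStarProjection (v * star v) := by
  refine ⟨?_, IsSelfAdjoint.mul_star_self v⟩
  show v * star v * (v * star v) = v * star v
  rw [← mul_assoc, hv.tgt_mul]

protected theorem star (hv : IsPN M A v) : IsPN M A (star v) :=
  ⟨star_mem hv.mem, by rw [star_star]; exact hv.star_mul_tgt,
    fun a ha => by rw [star_star]; exact hv.conj' a ha,
    fun a ha => by rw [star_star]; exact hv.conj a ha⟩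

theorem norm_le_one (hv : IsPN M A v) : ‖v‖ ≤ 1 := by
  have h := opNorm_proj_le_one hv.isStarProjection_src
  rw [CStarRing.norm_star_mul_self] at h
  nlinarith [norm_nonneg v]

/-- An element of `A` moves through `v`. -/
theorem mul_A (hA : IsMasa M A) (hv : IsPN M A v) {a : H →L[ℂ] H} (ha : a ∈ A) :
    v * a = v * a * star v * v := by
  calc v * a = v * (star v * v) * a := by rw [hv.pi]
    _ = v * (star v * v * a) := by rw [mul_assoc]
    _ = v * (a * (star v * v)) := by rw [(hA.comm _ hv.src_memA a ha).eq]
    _ = _ := by simp only [mul_assoc]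

theorem A_mul (hA : IsMasa M A) (hv : IsPN M A v) {a : H →L[ℂ] H} (ha : a ∈ A) :
    a * v = v * (star v * a * v) := by
  calc a * v = a * (v * star v * v) := by rw [hv.tgt_mul]
    _ = a * (v * star v) * v := by simp only [mul_assoc]
    _ = v * star v * a * v := by rw [(hA.comm a ha _ hv.tgt_memA).eq]
    _ = _ := by simp only [mul_assoc]

theorem conj_mul (hA : IsMasa M A) (hv : IsPN M A v) {a b : H →L[ℂ] H} (ha : a ∈ A) :
    v * a * star v * (v * b * star v) = v * (a * b) * star v := by
  calc v * a * star v * (v * b * star v) = v * a * star v * v * (b * star v) := by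
        simp only [mul_assoc]
    _ = v * a * (b * star v) := by rw [← hv.mul_A hA ha]
    _ = _ := by simp only [mul_assoc]

theorem conj_proj (hA : IsMasa M A) (hv : IsPN M A v) {g : H →L[ℂ] H} (hg : g ∈ A)
    (hgp : IsStarProjection g) : IsStarProjection (v * g * star v) := by
  refine ⟨?_, ?_⟩
  · show v * g * star v * (v * g * star v) = v * g * star v
    rw [hv.conj_mul hA hg, hgp.isIdempotentElem.eq]
  · show star (v * g * star v) = v * g * star v
    rw [star_mul, star_mul, star_star, hgp.isSelfAdjoint.star_eq, mul_assoc]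

theorem of_proj (hA : IsMasa M A) {f : H →L[ℂ] H} (hf : f ∈ A) (hfp : IsStarProjection f) :
    IsPN M A f :=
  ⟨hA.le f hf, by rw [hfp.isSelfAdjoint.star_eq, hfp.isIdempotentElem.eq, hfp.isIdempotentElem.eq],
    fun a ha => mul_mem (mul_mem hf ha) (star_mem hf),
    fun a ha => mul_mem (mul_mem (star_mem hf) ha) hf⟩

protected theorem one (hA : IsMasa M A) : IsPN M A 1 :=
  of_proj hA (one_mem A) (IsStarProjection.one _)

protected theorem mul (hA : IsMasa M A) (hv : IsPN M A v) (hw : IsPN M A w) :
    IsPN M A (v * w) := by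
  refine ⟨mul_mem hv.mem hw.mem, ?_, fun a ha => ?_, fun a ha => ?_⟩
  · calc v * w * (star (v * w) * (v * w))
        = v * (w * star w * (star v * v)) * w := by rw [star_mul]; simp only [mul_assoc]
      _ = v * (star v * v * (w * star w)) * w := by
          rw [(hA.comm _ hw.tgt_memA _ hv.src_memA).eq]
      _ = v * (star v * v) * (w * star w * w) := by simp only [mul_assoc]
      _ = v * w := by rw [hv.pi, hw.tgt_mul]
  · rw [star_mul, show v * w * a * (star w * star v) = v * (w * a * star w) * star v by
      simp only [mul_assoc]]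
    exact hv.conj _ (hw.conj a ha)
  · rw [star_mul, show star w * star v * a * (v * w) = star w * (star v * a * v) * w by
      simp only [mul_assoc]]
    exact hw.conj' _ (hv.conj' a ha)

theorem mul_proj (hA : IsMasa M A) (hv : IsPN M A v) {f : H →L[ℂ] H} (hf : f ∈ A)
    (hfp : IsStarProjection f) : IsPN M A (v * f) :=
  hv.mul hA (of_proj hA hf hfp)

theorem proj_mul (hA : IsMasa M A) (hv : IsPN M A v) {f : H →L[ℂ] H} (hf : f ∈ A)
    (hfp : IsStarProjection f) : IsPN M A (f * v) :=
  (of_proj hA hf hfp).mul hA hv

/-- The expectation commutes with conjugation by a partial normaliser. -/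
theorem expE_conj (hφ : IsCState M A φ) (hv : IsPN M A v) {Y : H →L[ℂ] H} (hY : Y ∈ M) :
    expE A φ (star v * Y * v) = star v * expE A φ Y * v := by
  have hA := hφ.masa
  set X := Y - expE A φ Y with hX
  have hXM : X ∈ M := sub_mem hY (hφ.expE_memM hY)
  have hEX : expE A φ X = 0 := by
    rw [hX, hφ.expE_sub hY (hφ.expE_memM hY), hφ.expE_of_mem (hφ.expE_mem hY), sub_self]
  have hM : ∀ {Z}, Z ∈ M → star v * Z * v ∈ M := fun hZ =>
    mul_mem (mul_mem (star_mem hv.mem) hZ) hv.mem
  -- pinching inside does not change the expectation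
  have key : ∀ P : Part A (1 : H →L[ℂ] H),
      expE A φ (star v * X * v) = expE A φ (star v * pinch P.p X * v) := by
    intro P
    have hp : ∀ i, P.p i ∈ M := fun i => hA.le _ (P.isPart.mem i)
    have e1 : star v * X * v = ∑ i, ∑ l, star v * (P.p i * X * P.p l) * v := by
      simp only [← Finset.sum_mul, ← Finset.mul_sum, P.isPart.sum_eq, one_mul, mul_one]
    have hterm : ∀ i l, i ≠ l → expE A φ (star v * (P.p i * X * P.p l) * v) = 0 := by
      intro i l hil
      have hg := hv.conj' _ (P.isPart.mem i)
      have hg' := hv.conj' _ (P.isPart.mem l)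
      set Z := star v * (P.p i * X * P.p l) * v with hZ
      have hZM : Z ∈ M := hM (mul_mem (mul_mem (hp i) hXM) (hp l))
      have hgl : star v * P.p i * v * Z = Z := by
        calc star v * P.p i * v * Z
            = star v * (P.p i * (v * star v)) * P.p i * X * P.p l * v := by
              simp only [hZ, mul_assoc]
          _ = star v * (v * star v * P.p i) * P.p i * X * P.p l * v := by
              rw [(hA.comm _ (P.isPart.mem i) _ hv.tgt_memA).eq]
          _ = star v * (v * star v) * (P.p i * P.p i) * X * P.p l * v := by simp only [mul_assoc]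
          _ = Z := by
              rw [hv.star_mul_tgt, (P.isPart.proj i).isIdempotentElem.eq]
              simp only [hZ, mul_assoc]
      have hgr : Z * (star v * P.p l * v) = Z := by
        calc Z * (star v * P.p l * v)
            = star v * P.p i * X * (P.p l * (v * star v)) * P.p l * v := by
              simp only [hZ, mul_assoc]
          _ = star v * P.p i * X * (v * star v * P.p l) * P.p l * v := by
              rw [(hA.comm _ (P.isPart.mem l) _ hv.tgt_memA).eq]
          _ = star v * P.p i * X * (v * star v) * (P.p l * P.p l) * v := by simp only [mul_assoc]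
          _ = star v * P.p i * X * P.p l * (v * star v * v) := by
              rw [(P.isPart.proj l).isIdempotentElem.eq, mul_assoc (star v * P.p i * X),
                (hA.comm _ hv.tgt_memA _ (P.isPart.mem l)).eq]
              simp only [mul_assoc]
          _ = Z := by rw [hv.tgt_mul]; simp only [hZ, mul_assoc]
      have hEA := hφ.expE_mem hZM
      have h0 : star v * P.p i * v * (star v * P.p l * v) = 0 := by
        have h := hv.star.conj_mul hA (b := P.p l) (P.isPart.mem i)
        rw [star_star] at h
        rw [h, P.isPart.orth i l hil]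
        simp
      calc expE A φ Z = expE A φ (star v * P.p i * v * Z * (star v * P.p l * v)) := by
            rw [hgl, hgr]
        _ = star v * P.p i * v * expE A φ Z * (star v * P.p l * v) := by
            rw [hφ.expE_mul_right hg' (mul_mem (hA.le _ hg) hZM), hφ.expE_mul_left hg hZM]
        _ = 0 := by
            rw [mul_assoc, (hA.comm _ hEA _ hg').eq, ← mul_assoc, h0, zero_mul]
    have hadd : ∀ {β : Type} (s : Finset β) (f : β → H →L[ℂ] H), (∀ b, f b ∈ M) →
        expE A φ (∑ b ∈ s, f b) = ∑ b ∈ s, expE A φ (f b) := by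
      intro β s f hf
      classical
      induction s using Finset.induction_on with
      | empty => simpa using hφ.expE_of_mem (zero_mem A)
      | insert b s hb ih =>
        rw [Finset.sum_insert hb, Finset.sum_insert hb,
          hφ.expE_add (hf b) (sum_mem fun c _ => hf c), ih]
    have hZM : ∀ i l, star v * (P.p i * X * P.p l) * v ∈ M := fun i l =>
      hM (mul_mem (mul_mem (hp i) hXM) (hp l))
    rw [e1, hadd _ _ fun i => sum_mem fun l _ => hZM i l, pinch, Finset.mul_sum, Finset.sum_mul,
      hadd _ _ fun i => hZM i i]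
    refine Finset.sum_congr rfl fun i _ => ?_
    rw [hadd _ _ (hZM i), Finset.sum_eq_single i (fun l _ h => hterm i l h.symm) (by simp)]
  have h0 : expE A φ (star v * X * v) = 0 := by
    have hpin := (hφ.expE_spec hXM).2.2
    rw [hEX] at hpin
    simp only [sub_zero] at hpin
    have hs := hφ.apply_tendsto_zero (fun P => hφ.pinch_memM P hXM)
      (fun P => P.isPart.norm_pinch_le X) hpin
    have hlim : Tendsto (fun P : Part A (1 : H →L[ℂ] H) => sq φ (star v * pinch P.p X * v))
        (refF A) (𝓝 0) := by
      refine hφ.sq_tendsto_zero (c := ‖star v‖ * ‖X‖ * ‖v‖) (fun P => hM (hφ.pinch_memM P hXM))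
        (fun P => norm_mul₃_le.trans ?_) fun u => ?_
      · gcongr
        exact P.isPart.norm_pinch_le X
      · simpa [Function.comp_def] using ((star v).continuous.tendsto _).comp (hs (v u))
    have hle : sq φ (expE A φ (star v * X * v)) ≤ 0 := by
      have := refF_neBot hA.comm
      have h2 := hlim.const_mul 2
      rw [mul_zero] at h2
      refine ge_of_tendsto h2 (.of_forall fun P => ?_)
      rw [key P]
      exact hφ.sq_expE_le (hM (hφ.pinch_memM P hXM))
    have hm := hφ.expE_memM (hM hXM)
    exact hφ.faithful _ hm (Complex.ext (le_antisymm hle (hφ.sq_nonneg' hm)) (hφ.pos_im hm))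
  have e : star v * Y * v = star v * X * v + star v * expE A φ Y * v := by
    rw [hX, mul_sub, sub_mul, sub_add_cancel]
  rw [e, hφ.expE_add (hM hXM) (hM (hφ.expE_memM hY)), h0, zero_add,
    hφ.expE_of_mem (hv.conj' _ (hφ.expE_mem hY))]

/-- The expectation of `Y v`. -/
theorem expE_mul_right' (hφ : IsCState M A φ) (hv : IsPN M A v) {Y : H →L[ℂ] H} (hY : Y ∈ M) :
    expE A φ (Y * v) = star v * expE A φ (v * Y) * v := by
  have hYv := mul_mem hY hv.mem
  rw [← hv.expE_conj hφ (mul_mem hv.mem hY),
    show star v * (v * Y) * v = star v * v * (Y * v) by simp only [mul_assoc],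
    hφ.expE_mul_left hv.src_memA hYv, (hφ.masa.comm _ hv.src_memA _ (hφ.expE_mem hYv)).eq,
    ← hφ.expE_mul_right hv.src_memA hYv, mul_assoc, hv.pi]

end IsPN

namespace IsSum

theorem mem (hA : IsMasa M A) {s : H →L[ℂ] H} (hs : IsSum M A s) : s ∈ M := by
  induction hs with
  | zero => exact zero_mem M
  | term ha hv => exact mul_mem (hA.le _ ha) hv.mem
  | add _ _ i1 i2 => exact add_mem i1 i2

theorem of_memA (hA : IsMasa M A) {a : H →L[ℂ] H} (ha : a ∈ A) : IsSum M A a := by
  simpa using IsSum.term ha (IsPN.one hA)

theorem of_pn (hv : IsPN M A v) : IsSum M A v := by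
  simpa using IsSum.term (one_mem A) hv

theorem smul (c : ℂ) {s : H →L[ℂ] H} (hs : IsSum M A s) : IsSum M A (c • s) := by
  induction hs with
  | zero => simpa using IsSum.zero
  | term ha hv =>
    rw [← smul_mul_assoc]
    exact IsSum.term (smul_mem' A ha c) hv
  | add _ _ i1 i2 => rw [smul_add]; exact i1.add i2

theorem neg {s : H →L[ℂ] H} (hs : IsSum M A s) : IsSum M A (-s) := by
  simpa using hs.smul (-1)

theorem sub {s t : H →L[ℂ] H} (hs : IsSum M A s) (ht : IsSum M A t) : IsSum M A (s - t) := by
  rw [sub_eq_add_neg]; exact hs.add ht.neg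

theorem sum {β : Type*} (t : Finset β) (f : β → H →L[ℂ] H) (hf : ∀ b ∈ t, IsSum M A (f b)) :
    IsSum M A (∑ b ∈ t, f b) := by
  classical
  induction t using Finset.induction_on with
  | empty => simpa using IsSum.zero
  | insert b t hb ih =>
    rw [Finset.sum_insert hb]
    exact (hf b (by simp)).add (ih fun c hc => hf c (by simp [hc]))

theorem mul (hA : IsMasa M A) {s t : H →L[ℂ] H} (hs : IsSum M A s) (ht : IsSum M A t) :
    IsSum M A (s * t) := by
  induction hs with
  | zero => simpa using IsSum.zero
  | @term a v ha hv =>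
    induction ht with
    | zero => simpa using IsSum.zero
    | @term b w hb hw =>
      have e : a * v * (b * w) = a * (v * b * star v) * (v * w) := by
        calc a * v * (b * w) = a * (v * b) * w := by simp only [mul_assoc]
          _ = a * (v * b * star v * v) * w := by rw [← hv.mul_A hA hb]
          _ = _ := by simp only [mul_assoc]
      rw [e]
      exact IsSum.term (mul_mem ha (hv.conj b hb)) (hv.mul hA hw)
    | add _ _ i1 i2 => rw [mul_add]; exact i1.add i2
  | add _ _ i1 i2 => rw [add_mul]; exact i1.add i2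

theorem pow (hA : IsMasa M A) {s : H →L[ℂ] H} (hs : IsSum M A s) (n : ℕ) :
    IsSum M A (s ^ n) := by
  induction n with
  | zero => simpa using of_memA hA (one_mem A)
  | succ n ih => rw [pow_succ]; exact ih.mul hA hs

protected theorem star (hA : IsMasa M A) {s : H →L[ℂ] H} (hs : IsSum M A s) :
    IsSum M A (star s) := by
  induction hs with
  | zero => simpa using IsSum.zero
  | @term a v ha hv =>
    have e : star (a * v) = star v * star a * v * star v := by
      have h := hv.star.mul_A hA (star_mem ha)
      rw [star_star] at h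
      rw [star_mul]
      exact h
    rw [e]
    exact IsSum.term (hv.conj' _ (star_mem ha)) hv.star
  | add _ _ i1 i2 => rw [star_add]; exact i1.add i2

theorem exists_fin {s : H →L[ℂ] H} (hs : IsSum M A s) :
    ∃ (n : ℕ) (a v : Fin n → H →L[ℂ] H), (∀ i, a i ∈ A) ∧ (∀ i, IsPN M A (v i)) ∧
      s = ∑ i, a i * v i := by
  induction hs with
  | zero => exact ⟨0, Fin.elim0, Fin.elim0, fun i => i.elim0, fun i => i.elim0, by simp⟩
  | @term a v ha hv => exact ⟨1, fun _ => a, fun _ => v, fun _ => ha, fun _ => hv, by simp⟩
  | add _ _ i1 i2 =>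
    obtain ⟨n, a, v, ha, hv, rfl⟩ := i1
    obtain ⟨m, b, w, hb, hw, rfl⟩ := i2
    refine ⟨n + m, Fin.append a b, Fin.append v w, ?_, ?_, ?_⟩
    · exact Fin.addCases (fun i => by simpa using ha i) fun i => by simpa using hb i
    · exact Fin.addCases (fun i => by simpa using hv i) fun i => by simpa using hw i
    · simp [Fin.sum_univ_add]

end IsSum

namespace InD

variable {d e : H →L[ℂ] H}

theorem expE_zero (hφ : IsCState M A φ) (hd : InD M A φ d) : expE A φ d = 0 := by
  simpa using hd.orth 1 (IsPN.one hφ.masa)

theorem mul_left_A (hφ : IsCState M A φ) (hd : InD M A φ d) {a : H →L[ℂ] H} (ha : a ∈ A) :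
    InD M A φ (a * d) := by
  refine ⟨mul_mem (hφ.masa.le a ha) hd.mem, fun v hv => ?_⟩
  have h := hv.star.mul_A hφ.masa ha
  rw [star_star] at h
  rw [← mul_assoc, h, mul_assoc, hφ.expE_mul_left (hv.conj' a ha)
    (mul_mem (star_mem hv.mem) hd.mem), hd.orth v hv, mul_zero]

theorem mul_left_pn (hφ : IsCState M A φ) (hd : InD M A φ d) (hw : IsPN M A w) :
    InD M A φ (w * d) := by
  refine ⟨mul_mem hw.mem hd.mem, fun v hv => ?_⟩
  have h := hd.orth (star w * v) (hw.star.mul hφ.masa hv)
  rw [star_mul, star_star, mul_assoc] at h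
  exact h

protected theorem star (hφ : IsCState M A φ) (hd : InD M A φ d) : InD M A φ (star d) := by
  refine ⟨star_mem hd.mem, fun v hv => ?_⟩
  have h0 : expE A φ (v * d) = 0 := by
    have := hd.orth (star v) hv.star
    rwa [star_star] at this
  rw [← star_mul, hφ.expE_star (mul_mem hd.mem hv.mem), hv.expE_mul_right' hφ hd.mem, h0]
  simp

theorem mul_right_A (hφ : IsCState M A φ) (hd : InD M A φ d) {a : H →L[ℂ] H} (ha : a ∈ A) :
    InD M A φ (d * a) := by
  simpa using ((hd.star hφ).mul_left_A hφ (star_mem ha)).star hφ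

theorem mul_right_pn (hφ : IsCState M A φ) (hd : InD M A φ d) (hw : IsPN M A w) :
    InD M A φ (d * w) := by
  simpa using ((hd.star hφ).mul_left_pn hφ hw.star).star hφ

protected theorem zero (hφ : IsCState M A φ) : InD M A φ 0 :=
  ⟨zero_mem M, fun v _ => by rw [mul_zero, hφ.expE_of_mem (zero_mem A)]⟩

protected theorem add (hφ : IsCState M A φ) (hd : InD M A φ d) (he : InD M A φ e) :
    InD M A φ (d + e) :=
  ⟨add_mem hd.mem he.mem, fun v hv => by
    rw [mul_add, hφ.expE_add (mul_mem (star_mem hv.mem) hd.mem) (mul_mem (star_mem hv.mem) he.mem),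
      hd.orth v hv, he.orth v hv, add_zero]⟩

protected theorem smul (hφ : IsCState M A φ) (hd : InD M A φ d) (c : ℂ) :
    InD M A φ (c • d) :=
  ⟨smul_mem' M hd.mem c, fun v hv => by
    rw [mul_smul_comm, hφ.expE_smul (mul_mem (star_mem hv.mem) hd.mem), hd.orth v hv, smul_zero]⟩

protected theorem sub (hφ : IsCState M A φ) (hd : InD M A φ d) (he : InD M A φ e) :
    InD M A φ (d - e) := by
  simpa [sub_eq_add_neg] using hd.add hφ (he.smul hφ (-1))

theorem mul_left_sum (hφ : IsCState M A φ) (hd : InD M A φ d) {s : H →L[ℂ] H}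
    (hs : IsSum M A s) : InD M A φ (s * d) := by
  induction hs with
  | zero => simpa using InD.zero hφ
  | @term a v ha hv => rw [mul_assoc]; exact (hd.mul_left_pn hφ hv).mul_left_A hφ ha
  | add _ _ i1 i2 => rw [add_mul]; exact i1.add hφ i2

theorem orth_sum (hφ : IsCState M A φ) (hd : InD M A φ d) {s : H →L[ℂ] H}
    (hs : IsSum M A s) : expE A φ (star s * d) = 0 :=
  (hd.mul_left_sum hφ (hs.star hφ.masa)).expE_zero hφ

end InD

end Vale.Agent.P078.General.Orbit
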