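import Vale.Agent.P078.Orbit.Mono

/-!
# One partition on whose atoms all coincidences of finitely many normalisers are constant

For one partial normaliser the MASA splits into a part where it lies in `A` and finitely many
pieces moved off themselves (the three set lemma for a partial bijection).
-/

namespace Vale.Agent.P078.General.Orbit

open scoped InnerProductSpace Topology ComplexOrder
open Filter Vale.Agent.P078.General.Single

universe u

variable {H : Type u} [NormedAddCommGroup H] [InnerProductSpace ℂ H] [CompleteSpace H]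
variable {M A : VonNeumannAlgebra H} {φ : (H →L[ℂ] H) →ₗ[ℂ] ℂ} {v : H →L[ℂ] H}

/-- A projection below the source of `v` moved off itself. -/
structure IsFree (A : VonNeumannAlgebra H) (v f : H →L[ℂ] H) : Prop where
  mem : f ∈ A
  proj : IsStarProjection f
  src : f * (star v * v) = f
  off : f * (v * f * star v) = 0

theorem IsFree.mul_proj (hA : IsMasa M A) (hv : IsPN M A v) {f g : H →L[ℂ] H}
    (hf : IsFree A v f) (hg : g ∈ A) (hgp : IsStarProjection g) : IsFree A v (f * g) := by
  have hc := fun {x y : H →L[ℂ] H} (hx : x ∈ A) (hy : y ∈ A) => (hA.comm x hx y hy).eq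
  refine ⟨mul_mem hf.mem hg, hf.proj.mul hgp (hA.comm _ hf.mem _ hg), ?_, ?_⟩
  · rw [mul_assoc, hc hg hv.src_memA, ← mul_assoc, hf.src]
  · rw [← hv.conj_mul hA hf.mem, hc hf.mem hg, mul_assoc, ← mul_assoc f, hf.off]
    simp

/-- A maximal free projection. -/
theorem exists_free_max (hφ : IsCState M A φ) (hv : IsPN M A v) :
    ∃ f, IsFree A v f ∧ ∀ g, IsFree A v g → f * g = f → g = f := by
  classical
  have hA := hφ.masa
  set S : (H →L[ℂ] H) → Set ℝ := fun f =>
    {t | ∃ g, IsFree A v g ∧ f * g = f ∧ t = (φ g).re} with hS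
  have hbd : ∀ f, BddAbove (S f) := fun f => ⟨(φ 1).re, by
    rintro t ⟨g, hg, -, rfl⟩
    have h := hφ.sq_nonneg' (sub_mem (one_mem M) (hA.le _ hg.mem))
    rw [Single.sq, hg.proj.one_sub.isSelfAdjoint.star_eq, hg.proj.one_sub.isIdempotentElem.eq, map_sub,
      Complex.sub_re] at h
    linarith⟩
  have h0 : IsFree A v 0 := ⟨zero_mem A, IsStarProjection.zero _, by simp, by simp⟩
  have hstep : ∀ (n : ℕ) (f : {f // IsFree A v f}), ∃ g : {g // IsFree A v g},
      f.1 * g.1 = f.1 ∧ sSup (S f.1) - 1 / ((n : ℝ) + 1) < (φ g.1).re := by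
    intro n f
    have hne : (S f.1).Nonempty := ⟨_, f.1, f.2, f.2.proj.isIdempotentElem.eq, rfl⟩
    obtain ⟨t, ⟨g, hg, hfg, rfl⟩, ht⟩ := exists_lt_of_lt_csSup hne
      (sub_lt_self (sSup (S f.1)) (show (0 : ℝ) < 1 / ((n : ℝ) + 1) by positivity))
    exact ⟨⟨g, hg⟩, hfg, ht⟩
  choose next hnext using hstep
  let F : ℕ → {f // IsFree A v f} := fun n => Nat.rec ⟨0, h0⟩ (fun k f => next k f) n
  have hmono : ∀ n, (F n).1 * (F (n + 1)).1 = (F n).1 := fun n => (hnext n (F n)).1
  obtain ⟨z, hzA, hzp, hzmul, hzlim, hzφ⟩ :=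
    hφ.exists_proj_limit (fun n => (F n).2.mem) (fun n => (F n).2.proj) hmono
  have hz : IsFree A v z := by
    refine ⟨hzA, hzp, ?_, ?_⟩
    · refine ContinuousLinearMap.ext fun w => ?_
      rw [mul_apply_eq_comp]
      refine tendsto_nhds_unique (hzlim _) ((hzlim w).congr fun n => ?_)
      rw [← mul_apply_eq_comp, (F n).2.src]
    · refine ContinuousLinearMap.ext fun w => ?_
      simp only [mul_apply_eq_comp, zero_apply]
      refine tendsto_nhds_unique
        (tendsto_apply_comp (T := fun n => (F n).1) (fun n => opNorm_proj_le_one (F n).2.proj) hzlim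
          ((v.continuous.tendsto _).comp (hzlim (star v w)))) (tendsto_const_nhds.congr fun n => ?_)
      exact (congrArg (fun T : H →L[ℂ] H => T w) (F n).2.off).symm
  refine ⟨z, hz, fun g hg hzg => ?_⟩
  have hle : ∀ n : ℕ, (φ g).re ≤ (φ z).re + 1 / ((n : ℝ) + 1) := by
    intro n
    have h1 : (φ g).re ≤ sSup (S (F n).1) :=
      le_csSup (hbd _) ⟨g, hg, by rw [← hzmul n, mul_assoc, hzg], rfl⟩
    have h2 : (φ (F (n + 1)).1).re ≤ (φ z).re := by
      have h := hφ.sq_nonneg' (sub_mem (hA.le _ hzA) (hA.le _ (F (n + 1)).2.mem))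
      have e := hzmul (n + 1)
      have e' : z * (F (n + 1)).1 = (F (n + 1)).1 :=
        (hA.comm _ hzA _ (F (n + 1)).2.mem).eq.trans e
      rw [Single.sq, star_sub, hzp.isSelfAdjoint.star_eq, (F (n + 1)).2.proj.isSelfAdjoint.star_eq] at h
      simp [sub_mul, mul_sub, e, e', hzp.isIdempotentElem.eq,
        (F (n + 1)).2.proj.isIdempotentElem.eq] at h
      linarith
    linarith [(hnext n (F n)).2]
  have hlim : (φ g).re ≤ (φ z).re := by
    have ht := tendsto_one_div_add_atTop_nhds_zero_nat.const_add (φ z).re
    rw [add_zero] at ht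
    exact ge_of_tendsto ht (Eventually.of_forall hle)
  have hgM := sub_mem (hA.le _ hg.mem) (hA.le _ hzA)
  have hsq : sq φ (g - z) ≤ 0 := by
    have e' : g * z = z := (hA.comm _ hg.mem _ hzA).eq.trans hzg
    rw [Single.sq, star_sub, hzp.isSelfAdjoint.star_eq, hg.proj.isSelfAdjoint.star_eq]
    simp [sub_mul, mul_sub, hzg, e', hzp.isIdempotentElem.eq, hg.proj.isIdempotentElem.eq]
    linarith
  exact sub_eq_zero.1 (hφ.faithful _ hgM
    (Complex.ext (le_antisymm hsq (hφ.sq_nonneg' hgM)) (hφ.pos_im hgM)))

theorem IsFree.fwd (hA : IsMasa M A) (hv : IsPN M A v) {f : H →L[ℂ] H} (hf : IsFree A v f) :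
    IsFree A v (v * f * star v * (star v * v)) := by
  have hθA := hv.conj f hf.mem
  refine ⟨mul_mem hθA hv.src_memA, (hv.conj_proj hA hf.mem hf.proj).mul hv.isStarProjection_src
    (hA.comm _ hθA _ hv.src_memA), ?_, ?_⟩
  · rw [mul_assoc, hv.isStarProjection_src.isIdempotentElem.eq]
  · calc v * f * star v * (star v * v) * (v * (v * f * star v * (star v * v)) * star v)
        = star v * v * (v * f * star v) * (v * (v * f * star v * (star v * v)) * star v) := by
          rw [(hA.comm _ hθA _ hv.src_memA).eq]
      _ = star v * v *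
            (v * f * star v * (v * (v * f * star v * (star v * v)) * star v)) := by
          rw [mul_assoc]
      _ = star v * v * (v * (f * (v * f * star v * (star v * v))) * star v) := by
          rw [hv.conj_mul hA hf.mem]
      _ = 0 := by rw [← mul_assoc f, hf.off]; simp

theorem IsFree.bwd (hA : IsMasa M A) (hv : IsPN M A v) {f : H →L[ℂ] H} (hf : IsFree A v f) :
    IsFree A v (star v * f * v) := by
  have hc := fun {x y : H →L[ℂ] H} (hx : x ∈ A) (hy : y ∈ A) => (hA.comm x hx y hy).eq
  have hgA := hv.conj' f hf.mem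
  have hgp : IsStarProjection (star v * f * v) := by
    simpa using hv.star.conj_proj hA hf.mem hf.proj
  have hge : star v * f * v * (star v * v) = star v * f * v := by
    rw [mul_assoc, hv.pi]
  have hθg : v * (star v * f * v) * star v = f * (v * star v) := by
    calc v * (star v * f * v) * star v = v * star v * f * (v * star v) := by simp only [mul_assoc]
      _ = f * (v * star v) * (v * star v) := by rw [hc hv.tgt_memA hf.mem]
      _ = _ := by rw [mul_assoc, hv.isStarProjection_tgt.isIdempotentElem.eq]
  have h1 : v * (star v * f * v * f) * star v = 0 := by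
    rw [← hv.conj_mul hA hgA, hθg, mul_assoc, hc hv.tgt_memA (hv.conj f hf.mem), ← mul_assoc,
      hf.off, zero_mul]
  have h2 : star v * f * v * f = 0 := by
    have hm : star v * f * v * f ∈ A := mul_mem hgA hf.mem
    calc star v * f * v * f = star v * f * v * f * (star v * v) := by
          rw [mul_assoc (star v * f * v) f, hf.src]
      _ = star v * f * v * f * (star v * v * (star v * v)) := by
          rw [hv.isStarProjection_src.isIdempotentElem.eq]
      _ = star v * v * (star v * f * v * f) * (star v * v) := by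
          rw [← mul_assoc, hc hm hv.src_memA]
      _ = star v * (v * (star v * f * v * f) * star v) * v := by simp only [mul_assoc]
      _ = 0 := by rw [h1]; simp
  refine ⟨hgA, hgp, hge, ?_⟩
  rw [hθg, ← mul_assoc, h2, zero_mul]

/-- A piece without free parts is fixed: `v` lies in `A` on it. -/
theorem mul_mem_of_fixed (hA : IsMasa M A) (hv : IsPN M A v) {r : H →L[ℂ] H} (hrA : r ∈ A)
    (hrp : IsStarProjection r) (hre : r * (star v * v) = r)
    (hno : ∀ h, h ∈ A → IsStarProjection h → h * r = h →
      h * (v * h * star v) = 0 → h = 0) : v * r ∈ A := by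
  have hc := fun {x y : H →L[ℂ] H} (hx : x ∈ A) (hy : y ∈ A) => (hA.comm x hx y hy).eq
  have hfix : ∀ h, h ∈ A → IsStarProjection h → h * r = h → h * (v * h * star v) = h := by
    intro h hh hhp hhr
    have hθ := hv.conj h hh
    have hθp := hv.conj_proj hA hh hhp
    have hc1 : 1 - v * h * star v ∈ A := sub_mem (one_mem A) hθ
    have h0 : h * (1 - v * h * star v) = 0 := hno _ (mul_mem hh hc1)
      (hhp.mul hθp.one_sub (hA.comm _ hh _ hc1))
      (by rw [mul_assoc, hc hc1 hrA, ← mul_assoc, hhr])
      (by rw [← hv.conj_mul hA hh, mul_assoc h, ← mul_assoc (1 - v * h * star v),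
            sub_mul, one_mul, hθp.isIdempotentElem.eq, sub_self]
          simp)
    rw [mul_sub, mul_one, sub_eq_zero] at h0
    exact h0.symm
  have hsp := hv.conj_proj hA hrA hrp
  have hsA := hv.conj r hrA
  have h2 : v * r * star v * r = r := by
    rw [hc hsA hrA]; exact hfix r hrA hrp hrp.isIdempotentElem.eq
  have hmA : v * r * star v - r ∈ A := sub_mem hsA hrA
  have hmp : IsStarProjection (v * r * star v - r) :=
    hrp.sub_of_mul_eq_left hsp ((hc hrA hsA).trans h2)
  have hgA := hv.conj' _ hmA
  have hgp : IsStarProjection (star v * (v * r * star v - r) * v) := by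
    simpa using hv.star.conj_proj hA hmA hmp
  have hback : star v * (v * r * star v) * v = r := by
    calc star v * (v * r * star v) * v = star v * v * r * (star v * v) := by
          simp only [mul_assoc]
      _ = r := by rw [hc hv.src_memA hrA, mul_assoc, hv.isStarProjection_src.isIdempotentElem.eq,
            hre]
  have hgr : star v * (v * r * star v - r) * v * r = star v * (v * r * star v - r) * v := by
    have h := hv.star.conj_mul hA (b := v * r * star v) hmA
    rw [star_star, hback] at h
    rw [h, sub_mul, hsp.isIdempotentElem.eq, hc hrA hsA, h2]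
  have htgt : v * star v * (v * r * star v - r) = v * r * star v - r := by
    have e1 : v * star v * (v * r * star v) = v * r * star v := by
      calc v * star v * (v * r * star v) = v * star v * v * r * star v := by simp only [mul_assoc]
        _ = _ := by rw [hv.tgt_mul]
    rw [mul_sub, e1]
    congr 1
    rw [← h2, ← mul_assoc (v * star v), e1]
  have hθg : v * (star v * (v * r * star v - r) * v) * star v = v * r * star v - r := by
    calc v * (star v * (v * r * star v - r) * v) * star v
        = v * star v * (v * r * star v - r) * (v * star v) := by simp only [mul_assoc]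
      _ = v * r * star v - r := by rw [htgt, hc hmA hv.tgt_memA, htgt]
  have hrm : r * (v * r * star v - r) = 0 := by
    rw [mul_sub, hc hrA hsA, h2, hrp.isIdempotentElem.eq, sub_self]
  have hg0 : star v * (v * r * star v - r) * v = 0 := by
    refine hno _ hgA hgp hgr ?_
    rw [hθg, ← hgr, mul_assoc (star v * (v * r * star v - r) * v) r, hrm, mul_zero]
  have hθr : v * r * star v = r := by
    rw [← sub_eq_zero, ← hθg, hg0]
    simp
  have hsub : ∀ h, h ∈ A → IsStarProjection h → h * r = h → v * h * star v = h := by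
    intro h hh hhp hhr
    have hk : r * (1 - h) ∈ A := mul_mem hrA (sub_mem (one_mem A) hh)
    have hkp : IsStarProjection (r * (1 - h)) :=
      hrp.mul hhp.one_sub (hA.comm _ hrA _ (sub_mem (one_mem A) hh))
    have hkr : r * (1 - h) * r = r * (1 - h) := by
      rw [hc hk hrA, ← mul_assoc, hrp.isIdempotentElem.eq]
    have hk2 := hfix _ hk hkp hkr
    have hh2 := hfix h hh hhp hhr
    have hz : v * h * star v * (v * (r * (1 - h)) * star v) = 0 := by
      rw [hv.conj_mul hA hh, ← mul_assoc h r, hhr, mul_sub, mul_one, hhp.isIdempotentElem.eq,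
        sub_self]
      simp
    have hzk : v * h * star v * (r * (1 - h)) = 0 := by
      rw [← hk2, hc hk (hv.conj _ hk), ← mul_assoc, hz, zero_mul]
    have hsum : r = h + r * (1 - h) := by
      rw [mul_sub, mul_one, hc hrA hh, hhr]; abel
    calc v * h * star v = v * h * star v * (v * r * star v) := by rw [hv.conj_mul hA hh, hhr]
      _ = v * h * star v * (h + r * (1 - h)) := by rw [hθr, ← hsum]
      _ = v * h * star v * h := by rw [mul_add, hzk, add_zero]
      _ = h := by rw [hc (hv.conj h hh) hh]; exact hh2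
  refine hA.max _ (mul_mem hv.mem (hA.le r hrA)) fun a ha =>
    commute_of_commute_proj A (fun g hg hgp => ?_) ha
  show g * (v * r) = v * r * g
  have hgr : g * r ∈ A := mul_mem hg hrA
  have e1 : v * r = r * v := by rw [hv.mul_A hA hrA, hθr]
  calc g * (v * r) = g * r * v := by rw [e1, mul_assoc]
    _ = v * (g * r) * star v * v := by
        rw [hsub _ hgr (hgp.mul hrp (hA.comm _ hg _ hrA))
          (by rw [mul_assoc, hrp.isIdempotentElem.eq])]
    _ = v * (g * r) := (hv.mul_A hA hgr).symm
    _ = v * r * g := by rw [hc hg hrA, mul_assoc]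

/-- A common refinement of finitely many partitions. -/
theorem exists_common_refinement (hc : ∀ a ∈ A, ∀ b ∈ A, Commute a b) {ι : Type*} (s : Finset ι)
    (F : ι → Part A (1 : H →L[ℂ] H)) :
    ∃ P : Part A (1 : H →L[ℂ] H), ∀ i ∈ s, Part.Refines P (F i) := by
  classical
  induction s using Finset.induction_on with
  | empty => exact ⟨Part.triv (one_mem A) (IsStarProjection.one _), by simp⟩
  | insert i s hi ih =>
    obtain ⟨P, hP⟩ := ih
    refine ⟨Part.inf hc (F i) P, fun j hj => ?_⟩
    rcases Finset.mem_insert.1 hj with rfl | hj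
    · exact Part.inf_refines_left hc _ _
    · exact Part.refines_trans (Part.inf_refines_right hc _ _) (hP j hj)

/-- The three set lemma: `v` lies in `A` on one piece and moves the others off themselves. -/
theorem exists_frolik (hφ : IsCState M A φ) (hv : IsPN M A v) :
    ∃ P : Part A (1 : H →L[ℂ] H), ∀ Q : Part A (1 : H →L[ℂ] H), Part.Refines Q P → ∀ k,
      (v * Q.p k ∈ A ∧ star v * v * Q.p k = Q.p k) ∨ Q.p k * v * Q.p k = 0 := by
  classical
  have hA := hφ.masa
  have hc := fun {x y : H →L[ℂ] H} (hx : x ∈ A) (hy : y ∈ A) => (hA.comm x hx y hy).eq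
  obtain ⟨f, hf, hmax⟩ := exists_free_max hφ hv
  obtain ⟨P, hP⟩ := exists_common_refinement hA.comm (Finset.univ : Finset (Fin 4))
    ![twoPart hv.src_memA hv.isStarProjection_src, twoPart hf.mem hf.proj,
      twoPart (hf.fwd hA hv).mem (hf.fwd hA hv).proj, twoPart (hf.bwd hA hv).mem (hf.bwd hA hv).proj]
  refine ⟨P, fun Q hQ k => ?_⟩
  set q := Q.p k with hq
  have hqA : q ∈ A := Q.isPart.mem k
  have hqp : IsStarProjection q := Q.isPart.proj k
  have hsplit : ∀ {x : H →L[ℂ] H} (hx : x ∈ A) (hxp : IsStarProjection x),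
      Part.Refines P (twoPart hx hxp) → q * x = q ∨ q * x = 0 :=
    fun hx hxp h => Part.refines_trans hQ h k (0 : Fin 2)
  have free_case : ∀ {x : H →L[ℂ] H}, IsFree A v x → q * x = q → q * v * q = 0 := fun hx h => by
    have h' : IsFree A v q := by
      have := hx.mul_proj hA hv hqA hqp
      rwa [hc hx.mem hqA, h] at this
    rw [mul_assoc, hv.mul_A hA hqA, ← mul_assoc, h'.off, zero_mul]
  rcases hsplit hv.src_memA hv.isStarProjection_src (hP 0 (Finset.mem_univ _)) with he | he
  swap
  · refine Or.inr ?_
    have : v * q = 0 := by rw [← hv.pi, mul_assoc, hc hv.src_memA hqA, he, mul_zero]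
    rw [mul_assoc, this, mul_zero]
  rcases hsplit hf.mem hf.proj (hP 1 (Finset.mem_univ _)) with h1 | h1
  · exact Or.inr (free_case hf h1)
  rcases hsplit (hf.fwd hA hv).mem (hf.fwd hA hv).proj (hP 2 (Finset.mem_univ _)) with h2 | h2
  · exact Or.inr (free_case (hf.fwd hA hv) h2)
  rcases hsplit (hf.bwd hA hv).mem (hf.bwd hA hv).proj (hP 3 (Finset.mem_univ _)) with h3 | h3
  · exact Or.inr (free_case (hf.bwd hA hv) h3)
  refine Or.inl ⟨mul_mem_of_fixed hA hv hqA hqp he fun h hh hhp hhq hoff => ?_,
    (hc hv.src_memA hqA).trans he⟩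
  have hz : ∀ {x : H →L[ℂ] H}, q * x = 0 → h * x = 0 := fun hx => by
    rw [← hhq, mul_assoc, hx, mul_zero]
  have hhe : h * (star v * v) = h := by rw [← hhq, mul_assoc, he]
  have hθA := hv.conj f hf.mem
  have z2 : h * (v * f * star v) = 0 := by
    calc h * (v * f * star v) = h * (star v * v) * (v * f * star v) := by rw [hhe]
      _ = h * (v * f * star v * (star v * v)) := by rw [mul_assoc, hc hv.src_memA hθA]
      _ = 0 := hz h2
  have z1 : f * (v * h * star v) = 0 := by
    calc f * (v * h * star v) = f * v * (h * star v) := by simp only [mul_assoc]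
      _ = v * (star v * f * v) * (h * star v) := by rw [hv.A_mul hA hf.mem]
      _ = v * (star v * f * v * h) * star v := by simp only [mul_assoc]
      _ = 0 := by rw [hc (hf.bwd hA hv).mem hh, hz h3]; simp
  have hfh : f * h = 0 := (hc hf.mem hh).trans (hz h1)
  have hfree : IsFree A v (f + h) := by
    refine ⟨add_mem hf.mem hh, hf.proj.add hhp hfh, by rw [add_mul, hf.src, hhe], ?_⟩
    simp only [mul_add, add_mul, hf.off, hoff, z1, z2, add_zero]
  have := hmax _ hfree (by rw [mul_add, hf.proj.isIdempotentElem.eq, hfh, add_zero])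
  simpa using this

/-- All coincidences of finitely many normalisers are constant on the atoms of one partition. -/
theorem exists_atoms (hφ : IsCState M A φ) {n : ℕ} (v : Fin n → H →L[ℂ] H)
    (hv : ∀ i, IsPN M A (v i)) :
    ∃ P : Part A (1 : H →L[ℂ] H), ∀ Q : Part A (1 : H →L[ℂ] H), Part.Refines Q P → ∀ k,
      (∀ i, star (v i) * v i * Q.p k = Q.p k ∨ v i * Q.p k = 0) ∧
      ∀ i j, (∃ a ∈ A, v i * Q.p k = v j * a) ∨
        v i * Q.p k * star (v i) * (v j * Q.p k * star (v j)) = 0 := by
  classical
  have hA := hφ.masa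
  have hw : ∀ p : Fin n × Fin n, IsPN M A (star (v p.2) * v p.1) := fun p =>
    (hv p.2).star.mul hA (hv p.1)
  choose F hF using fun p => exists_frolik hφ (hw p)
  obtain ⟨P1, hP1⟩ := exists_common_refinement hA.comm Finset.univ F
  obtain ⟨P2, hP2⟩ := exists_common_refinement hA.comm Finset.univ
    fun i => twoPart (hv i).src_memA (hv i).isStarProjection_src
  refine ⟨Part.inf hA.comm P1 P2, fun Q hQ k => ⟨fun i => ?_, fun i j => ?_⟩⟩
  · rcases Part.refines_trans hQ (Part.refines_trans (Part.inf_refines_right hA.comm P1 P2)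
      (hP2 i (Finset.mem_univ i))) k (0 : Fin 2) with h | h
    · exact Or.inl (((hA.comm _ (hv i).src_memA _ (Q.isPart.mem k)).eq).trans h)
    · refine Or.inr ?_
      have h' : star (v i) * v i * Q.p k = 0 :=
        ((hA.comm _ (hv i).src_memA _ (Q.isPart.mem k)).eq).trans h
      rw [← (hv i).pi, mul_assoc, h', mul_zero]
  · have hq := (Q.isPart.proj k)
    rcases hF (i, j) Q (Part.refines_trans hQ (Part.refines_trans
      (Part.inf_refines_left hA.comm P1 P2) (hP1 (i, j) (Finset.mem_univ _)))) k with ⟨hm, hs⟩ | h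
    · refine Or.inl ⟨star (v j) * v i * Q.p k, hm, ?_⟩
      calc v i * Q.p k
          = v i * (star (star (v j) * v i) * (star (v j) * v i) * Q.p k) := by rw [hs]
        _ = v i * star (v i) * (v j * star (v j)) * (v i * Q.p k) := by
            rw [star_mul, star_star]; simp only [mul_assoc]
        _ = v j * star (v j) * (v i * star (v i)) * (v i * Q.p k) := by
            rw [(hA.comm _ (hv i).tgt_memA _ (hv j).tgt_memA).eq]
        _ = v j * star (v j) * (v i * star (v i) * v i) * Q.p k := by simp only [mul_assoc]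
        _ = v j * (star (v j) * v i * Q.p k) := by
            rw [(hv i).tgt_mul]; simp only [mul_assoc]
    · refine Or.inr ?_
      have h' : Q.p k * star (star (v j) * v i) * Q.p k = 0 := by
        have := congrArg star h
        simpa [star_mul, hq.isSelfAdjoint.star_eq, mul_assoc] using this
      calc v i * Q.p k * star (v i) * (v j * Q.p k * star (v j))
          = v i * (Q.p k * star (star (v j) * v i) * Q.p k) * star (v j) := by
            rw [star_mul, star_star]; simp only [mul_assoc]
        _ = 0 := by rw [h']; simp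

end Vale.Agent.P078.General.Orbit
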