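import Vale.Agent.P078.Orbit.Rep

/-!
# The atomic part of an element, with bounded approximations by finite sums of normalisers

Let `K` be the compression of `x` to the closure `V` of the finite sums. The selfadjoint sums `y`
of `Orbit/Good` act like `K` on finitely many vectors, so `g (y)`, `g t = 2 t / (1 + t²)`, acts like
`g (K)`; since `h ∘ g = id` on `[-1, 1]`, polynomials in `g (y)` give bounded approximations of
`K 1`.
-/

namespace Vale.Agent.P078.General.Orbit

open scoped InnerProductSpace Topology ComplexOrder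
open Filter Vale.Agent.P078.General.Single Polynomial

universe u

variable {H : Type u} [NormedAddCommGroup H] [InnerProductSpace ℂ H] [CompleteSpace H]
variable {M A : VonNeumannAlgebra H} {φ : (H →L[ℂ] H) →ₗ[ℂ] ℂ}

theorem IsSum.smul_real (a : ℝ) {s : H →L[ℂ] H} (hs : IsSum M A s) : IsSum M A (a • s) := by
  rw [← Complex.coe_smul]
  exact hs.smul _

theorem IsSum.aeval (hA : IsMasa M A) {y : H →L[ℂ] H} (hy : IsSum M A y) (p : ℝ[X]) :
    IsSum M A (Polynomial.aeval y p) := by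
  induction p using Polynomial.induction_on' with
  | add p q hp hq => rw [map_add]; exact hp.add hq
  | monomial n a =>
    rw [aeval_monomial, ← Algebra.smul_def]
    exact (hy.pow hA n).smul_real a

/-- The atomic part of a selfadjoint contraction. -/
theorem exists_atomic_unit (hφ : IsCState M A φ) {x : H →L[ℂ] H} (hx : x ∈ M)
    (hxs : IsSelfAdjoint x) (hx1 : ‖x‖ ≤ 1) :
    ∃ e ∈ M, IsSelfAdjoint e ∧ ‖e‖ ≤ 2 ∧ InD M A φ (x - e) ∧
      ∀ η : ℝ, 0 < η → ∃ s, IsSum M A s ∧ IsSelfAdjoint s ∧ ‖s‖ ≤ 2 ∧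
        Single.sq φ (e - s) ≤ η := by
  classical
  have hA := hφ.masa
  have hone : (1 : H →L[ℂ] H) ∈ M := one_mem M
  obtain ⟨G, W, _, _, _, _, _, _, ι, j, κ, K, hR⟩ := exists_rep hφ hx hxs hx1
  obtain ⟨gK, iK, hgKn, hK1, hK2, hgKp⟩ := exists_calc K hR.sa hR.norm
  have hgyM : ∀ {y}, y ∈ M → cfc gfun y ∈ M := fun hyM =>
    mem_of_commute_commutant M fun z hz =>
      (Commute.cfc_real (VonNeumannAlgebra.mem_commutant_iff.1 hz _ hyM) gfun).symm
  have happrox : ∀ η : ℝ, 0 < η → ∃ s, IsSum M A s ∧ IsSelfAdjoint s ∧ ‖s‖ ≤ 2 ∧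
      ‖ι s - (j (K (κ 1)))‖ ≤ η := by
    intro η hη
    set N := ‖ι (1 : H →L[ℂ] H)‖ + 1 with hN
    have hN0 : 0 < N := by positivity
    set η' := min (1 / 4) (η / (4 * N)) with hη'
    have hη'0 : 0 < η' := lt_min (by norm_num) (by positivity)
    obtain ⟨p, hp⟩ :=
      exists_polynomial_near_of_continuousOn (-1) 1 hfun continuous_hfun.continuousOn η' hη'0
    obtain ⟨k, c, δ, w, hδ, hw, hwy⟩ := hR.exists_poly hφ hgKn hK1 hK2 p (η / 4) (by positivity)
    obtain ⟨y, hy, hys, hyg⟩ := hR.exists_good hφ hx hxs c hδ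
    obtain ⟨Q, hQ⟩ := exists_polynomial_near_of_continuousOn (-‖y‖) ‖y‖ (fun t => p.eval (gfun t))
      ((p.continuous.comp continuous_gfun).continuousOn) η' hη'0
    have hspec : ∀ t ∈ spectrum ℝ y, t ∈ Set.Icc (-‖y‖) ‖y‖ := fun t ht =>
      abs_le.1 (abs_le_norm_of_mem hys ht)
    have hQy : cfc Q.eval y = aeval y Q := cfc_polynomial Q y
    have hPy : cfc (fun t => p.eval (gfun t)) y = aeval (cfc gfun y) p := by
      rw [cfc_comp' p.eval gfun y p.continuous.continuousOn continuous_gfun.continuousOn,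
        cfc_polynomial p (cfc gfun y)]
    refine ⟨aeval y Q, hy.aeval hA Q, hQy ▸ cfc_predicate _ y, ?_, ?_⟩
    · rw [← hQy]
      refine norm_cfc_le zero_le_two fun t ht => ?_
      have h1 := hQ t (hspec t ht)
      have h2 := hp (gfun t) (abs_le.1 (abs_gfun_le t))
      have h3 := abs_hfun_le (abs_gfun_le t)
      rw [Real.norm_eq_abs]
      have : η' ≤ 1 / 4 := min_le_left _ _
      calc |Q.eval t| = |(Q.eval t - p.eval (gfun t)) + (p.eval (gfun t) - hfun (gfun t)) +
            hfun (gfun t)| := by congr 1; ring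
        _ ≤ |Q.eval t - p.eval (gfun t)| + |p.eval (gfun t) - hfun (gfun t)| +
            |hfun (gfun t)| := (abs_add_le _ _).trans (add_le_add (abs_add_le _ _) le_rfl)
        _ ≤ 2 := by linarith
    have hNη : η' * N ≤ η / 4 := by
      refine (mul_le_mul_of_nonneg_right (min_le_right _ _) hN0.le).trans (le_of_eq ?_)
      field_simp
    have hgy := hgyM (hy.mem hA)
    have hPM : aeval (cfc gfun y) p ∈ M := hPy ▸ mem_of_commute_commutant M fun z hz =>
      (Commute.cfc_real (VonNeumannAlgebra.mem_commutant_iff.1 hz y (hy.mem hA)) _).symm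
    have hQM := (hy.aeval hA Q).mem hA
    have e1 : ‖ι (aeval y Q) - ι (aeval (cfc gfun y) p)‖ ≤ η / 4 := by
      rw [← hR.sub hQM hPM, ← mul_one (aeval y Q - aeval (cfc gfun y) p)]
      refine (hR.left hφ (sub_mem hQM hPM) hone).trans ?_
      have h : ‖aeval y Q - aeval (cfc gfun y) p‖ ≤ η' := by
        rw [← hQy, ← hPy, ← cfc_sub Q.eval (fun t => p.eval (gfun t)) y Q.continuous.continuousOn
          (p.continuous.comp continuous_gfun).continuousOn]
        exact norm_cfc_le hη'0.le fun t ht => by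
          rw [Real.norm_eq_abs]; exact (hQ t (hspec t ht)).le
      refine (mul_le_mul_of_nonneg_right h (norm_nonneg _)).trans ?_
      nlinarith
    have e2 : ‖(j ((aeval gK p) (κ 1))) - (j (K (κ 1)))‖ ≤ η / 4 := by
      have h2 := hgKp p η' hη'0.le hp (κ 1)
      rw [← j.norm_map, map_sub] at h2
      have h3 : ‖κ 1‖ ≤ N := by
        rw [hN, ← j.norm_map, hR.emb _ (IsSum.of_memA hA (one_mem A))]; linarith
      refine le_trans ?_ hNη
      exact h2.trans (mul_le_mul_of_nonneg_left h3 hη'0.le)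
    linarith [norm_sub_le_norm_sub_add_norm_sub (ι (aeval y Q)) (ι (aeval (cfc gfun y) p)) (ι w.1),
      norm_sub_le_norm_sub_add_norm_sub (ι (aeval y Q)) (ι w.1) (j ((aeval gK p) (κ 1))),
      norm_sub_le_norm_sub_add_norm_sub (ι (aeval y Q)) (j ((aeval gK p) (κ 1))) (j (K (κ 1))),
      hwy y hy hys hyg]
  choose s hs hss hsn hsK using fun n : ℕ => happrox (1 / ((n : ℝ) + 1)) (by positivity)
  have hsM : ∀ n, s n ∈ M := fun n => (hs n).mem hA
  have hlim0 := tendsto_one_div_add_atTop_nhds_zero_nat (𝕜 := ℝ)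
  have hsT : Tendsto (fun n => ι (s n)) atTop (𝓝 (j (K (κ 1)))) :=
    tendsto_iff_norm_sub_tendsto_zero.2
      (squeeze_zero (fun n => norm_nonneg _) hsK hlim0)
  obtain ⟨e, heM, hen, helim, hesq⟩ := hφ.exists_limit (c := 2) hsM hsn (by
    intro η hη
    obtain ⟨N, hN⟩ := Metric.cauchySeq_iff.1 hsT.cauchySeq (√η) (Real.sqrt_pos.2 hη)
    refine ⟨N, fun m hm n hn => ?_⟩
    have h := hN m hm n hn
    rw [dist_eq_norm, ← hR.sub (hsM m) (hsM n), hR.norm_eq (sub_mem (hsM m) (hsM n))] at h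
    exact ((Real.sqrt_lt_sqrt_iff (hφ.sq_nonneg' (sub_mem (hsM m) (hsM n)))).1 h).le)
  have hes : IsSelfAdjoint e := by
    refine ContinuousLinearMap.isSelfAdjoint_iff'.2
      (ContinuousLinearMap.ext fun a => ext_inner_right ℂ fun b => ?_)
    rw [ContinuousLinearMap.adjoint_inner_left]
    refine tendsto_nhds_unique (tendsto_const_nhds.inner (helim b))
      (((helim a).inner tendsto_const_nhds).congr' (.of_forall fun n => ?_))
    rw [inner_sa (hss n)]
  have heK : ι e = (j (K (κ 1))) := by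
    refine tendsto_nhds_unique (tendsto_iff_norm_sub_tendsto_zero.2 ?_) hsT
    have := hesq.sqrt
    rw [Real.sqrt_zero] at this
    refine this.congr fun n => ?_
    rw [← hR.sub (hsM n) heM, hR.norm_eq (sub_mem (hsM n) heM)]
  refine ⟨e, heM, hes, hen, ⟨sub_mem hx heM, fun v hv => ?_⟩, fun η hη => ?_⟩
  · set T := expE A φ (star v * (x - e)) with hT
    have hm := mul_mem (star_mem hv.mem) (sub_mem hx heM)
    have hTA : T ∈ A := hφ.expE_mem hm
    have ht : IsSum M A (v * T) := (IsSum.of_pn hv).mul hA (IsSum.of_memA hA hTA)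
    have h0 : φ (star (v * T) * (x - e)) = 0 := by
      rw [← hR.inner _ (ht.mem hA) _ (sub_mem hx heM), hR.sub hx heM, inner_sub_right, heK,
        hR.kinner _ ht 1 (IsSum.of_memA hA (one_mem A)), mul_one,
        hR.inner _ (ht.mem hA) _ hx, sub_self]
    have hTM := hA.le _ hTA
    refine hφ.faithful _ hTM ?_
    rw [← h0, star_mul, mul_assoc, ← hφ.map_expE (mul_mem (star_mem hTM) hm),
      hφ.expE_mul_left (star_mem hTA) hm]
  · obtain ⟨n, hn⟩ := (hesq.eventually (eventually_le_nhds hη)).exists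
    refine ⟨s n, hs n, hss n, hsn n, ?_⟩
    rwa [show Single.sq φ (e - s n) = Single.sq φ (s n - e) by
      rw [← neg_sub e, Single.sq, Single.sq, star_neg, neg_mul_neg]]

/-- The atomic part of a selfadjoint element. -/
theorem exists_atomic (hφ : IsCState M A φ) {x : H →L[ℂ] H} (hx : x ∈ M)
    (hxs : IsSelfAdjoint x) :
    ∃ e ∈ M, IsSelfAdjoint e ∧ ‖e‖ ≤ 2 * ‖x‖ ∧ InD M A φ (x - e) ∧
      ∀ η : ℝ, 0 < η → ∃ s, IsSum M A s ∧ IsSelfAdjoint s ∧ ‖s‖ ≤ 2 * ‖x‖ ∧
        Single.sq φ (e - s) ≤ η := by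
  rcases eq_or_ne x 0 with rfl | hx0
  · exact ⟨0, zero_mem M, .zero _, by simp, by simpa using InD.zero hφ, fun η hη =>
      ⟨0, IsSum.zero, .zero _, by simp, by simpa [Single.sq] using hη.le⟩⟩
  set c := ‖x‖ with hc
  have hc0 : 0 < c := norm_pos_iff.2 hx0
  have hsa : ∀ (r : ℝ) {T : H →L[ℂ] H}, IsSelfAdjoint T → IsSelfAdjoint ((r : ℂ) • T) :=
    fun r T hT => by rw [IsSelfAdjoint, star_smul, hT.star_eq, Complex.star_def, Complex.conj_ofReal]
  have hx' : ((c⁻¹ : ℝ) : ℂ) • x ∈ M := smul_mem' M hx _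
  obtain ⟨e, he, hes, hen, hD, happ⟩ := exists_atomic_unit hφ hx' (hsa _ hxs) (by
    rw [norm_smul, Complex.norm_real, Real.norm_of_nonneg (inv_nonneg.2 hc0.le), ← hc,
      inv_mul_cancel₀ hc0.ne'])
  refine ⟨(c : ℂ) • e, smul_mem' M he _, hsa _ hes, ?_, ?_, fun η hη => ?_⟩
  · rw [norm_smul, Complex.norm_real, Real.norm_of_nonneg hc0.le, mul_comm 2]
    exact mul_le_mul_of_nonneg_left hen hc0.le
  · have e1 : x - (c : ℂ) • e = (c : ℂ) • (((c⁻¹ : ℝ) : ℂ) • x - e) := by
      rw [smul_sub, smul_smul, ← Complex.ofReal_mul, mul_inv_cancel₀ hc0.ne', Complex.ofReal_one,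
        one_smul]
    rw [e1]
    exact hD.smul hφ _
  · obtain ⟨s, hs, hss, hsn, hsq⟩ := happ (η / c ^ 2) (by positivity)
    refine ⟨(c : ℂ) • s, hs.smul _, hsa _ hss, ?_, ?_⟩
    · rw [norm_smul, Complex.norm_real, Real.norm_of_nonneg hc0.le, mul_comm 2]
      exact mul_le_mul_of_nonneg_left hsn hc0.le
    · rw [← smul_sub, IsCState.sq_smul, Complex.norm_real, Real.norm_of_nonneg hc0.le]
      rwa [le_div_iff₀' (by positivity)] at hsq

/-- The atomic part of every element. -/
theorem exists_atomic' (hφ : IsCState M A φ) {x : H →L[ℂ] H} (hx : x ∈ M) :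
    ∃ e ∈ M, InD M A φ (x - e) ∧ ∀ η : ℝ, 0 < η →
      ∃ s, IsSum M A s ∧ ‖s‖ ≤ 4 * ‖x‖ ∧ Single.sq φ (e - s) ≤ η := by
  set a := ((2⁻¹ : ℝ) : ℂ) • (x + star x) with ha
  set b := ((2⁻¹ : ℝ) : ℂ) • (Complex.I • (star x - x)) with hb
  have haM : a ∈ M := smul_mem' M (add_mem hx (star_mem hx)) _
  have hbM : b ∈ M := smul_mem' M (smul_mem' M (sub_mem (star_mem hx) hx) _) _
  have has : IsSelfAdjoint a := by
    rw [IsSelfAdjoint, ha, star_smul, star_add, star_star, Complex.star_def, Complex.conj_ofReal,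
      add_comm]
  have hbs : IsSelfAdjoint b := by
    rw [IsSelfAdjoint, hb, star_smul, star_smul, star_sub, star_star, Complex.star_def,
      Complex.conj_ofReal, Complex.conj_I, neg_smul, ← smul_neg, neg_sub]
  have hab : x = a + Complex.I • b := by
    rw [ha, hb, smul_comm Complex.I ((2⁻¹ : ℝ) : ℂ), smul_smul Complex.I Complex.I, Complex.I_mul_I,
      neg_one_smul, neg_sub, ← smul_add, add_add_sub_cancel, ← two_smul ℂ x, smul_smul]
    norm_num
  have hn : ‖a‖ ≤ ‖x‖ ∧ ‖b‖ ≤ ‖x‖ := by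
    constructor
    · rw [ha, norm_smul, Complex.norm_real, Real.norm_of_nonneg (by norm_num)]
      linarith [norm_add_le x (star x), norm_star x]
    · rw [hb, norm_smul, norm_smul, Complex.norm_I, one_mul, Complex.norm_real,
        Real.norm_of_nonneg (by norm_num)]
      linarith [norm_sub_le (star x) x, norm_star x]
  obtain ⟨e, he, -, -, hD, happ⟩ := exists_atomic hφ haM has
  obtain ⟨e', he', -, -, hD', happ'⟩ := exists_atomic hφ hbM hbs
  refine ⟨e + Complex.I • e', add_mem he (smul_mem' M he' _), ?_, fun η hη => ?_⟩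
  · rw [show x - (e + Complex.I • e') = (a - e) + Complex.I • (b - e') by
      conv_lhs => rw [hab]
      rw [smul_sub]; abel]
    exact hD.add hφ (hD'.smul hφ _)
  obtain ⟨s, hs, -, hsn, hsq⟩ := happ (η / 4) (by positivity)
  obtain ⟨s', hs', -, hsn', hsq'⟩ := happ' (η / 4) (by positivity)
  refine ⟨s + Complex.I • s', hs.add (hs'.smul _), ?_, ?_⟩
  · refine (norm_add_le _ _).trans ?_
    rw [norm_smul, Complex.norm_I, one_mul]
    linarith [hn.1, hn.2]
  · have hA := hφ.masa
    rw [show e + Complex.I • e' - (s + Complex.I • s') = (e - s) + Complex.I • (e' - s') by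
      rw [smul_sub]; abel]
    have := hφ.sq_add_le (sub_mem he (hs.mem hA)) (smul_mem' M (sub_mem he' (hs'.mem hA)) Complex.I)
    rw [IsCState.sq_smul, Complex.norm_I, one_pow, one_mul] at this
    linarith

end Vale.Agent.P078.General.Orbit
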