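import Vale.Agent.P078.Orbit.Mono
import Vale.Agent.P078.Single.Normaliser

/-!
# Elements orthogonal to the normalisers have diffuse conjugates

Otherwise two applications of the atom lemma give a nonzero normalising element which is still
orthogonal to all normalisers.
-/

namespace Vale.Agent.P078.General.Orbit

open scoped InnerProductSpace Topology ComplexOrder
open Filter Vale.Agent.P078.General.Single

universe u

variable {H : Type u} [NormedAddCommGroup H] [InnerProductSpace ℂ H] [CompleteSpace H]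
variable {M A : VonNeumannAlgebra H} {φ : (H →L[ℂ] H) →ₗ[ℂ] ℂ}

/-- `InD` passes to limits. -/
theorem InD.of_approx (hφ : IsCState M A φ) {S : H →L[ℂ] H} (hS : S ∈ M)
    (h : ∀ η : ℝ, 0 < η → ∃ d, InD M A φ d ∧ Single.sq φ (d - S) ≤ η) : InD M A φ S := by
  refine ⟨hS, fun v hv => ?_⟩
  have hm := hφ.expE_memM (mul_mem (star_mem hv.mem) hS)
  refine hφ.faithful _ hm (Complex.ext (le_antisymm ?_ (hφ.sq_nonneg' hm)) (hφ.pos_im hm))
  show Single.sq φ (expE A φ (star v * S)) ≤ 0
  refine le_of_forall_pos_le_add fun η hη => ?_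
  rw [zero_add]
  obtain ⟨d, hd, hdS⟩ := h (η / 2) (half_pos hη)
  have hdm := mul_mem (star_mem hv.mem) hd.mem
  have hSm := mul_mem (star_mem hv.mem) hS
  have h1 := hφ.sq_expE_le (sub_mem hdm hSm)
  rw [hφ.expE_sub hdm hSm, hd.orth v hv, zero_sub, ← mul_sub,
    show Single.sq φ (-expE A φ (star v * S)) = Single.sq φ (expE A φ (star v * S)) by
      simp [Single.sq]] at h1
  have hn : ‖star v‖ ^ 2 ≤ 1 := pow_le_one₀ (norm_nonneg _) hv.star.norm_le_one
  have h2 := (hφ.sq_mul_left (star_mem hv.mem) (sub_mem hd.mem hS)).trans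
    (mul_le_of_le_one_left (hφ.sq_nonneg' (sub_mem hd.mem hS)) hn)
  linarith

/-- No nonzero normalising element is orthogonal to all normalisers. -/
theorem eq_zero_of_normalising (hφ : IsCState M A φ) {S : H →L[ℂ] H} (hd : InD M A φ S)
    (h1 : ∀ e ∈ A, star S * e * S ∈ A) (h2 : ∀ e ∈ A, S * e * star S ∈ A) : S = 0 := by
  have hS := hd.mem
  by_contra hS0
  set a := star S * S with ha
  have haA : a ∈ A := by simpa [ha] using h1 1 (one_mem A)
  have ha0 : 0 ≤ a := star_mul_self_nonneg S
  have hane : a ≠ 0 := fun h => hS0 (CStarRing.star_mul_self_eq_zero_iff S |>.1 h)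
  haveI : Nontrivial (H →L[ℂ] H) := nontrivial_of_ne a 0 hane
  set τ := ‖a‖ / 2 with hτ
  have hτ0 : 0 < τ := half_pos (norm_pos_iff.2 hane)
  set D := cfc (fun s : ℝ => max (s - τ) 0) a with hD
  have hD0 : 0 ≤ D := cfc_nonneg fun s _ => le_max_right _ _
  have hDA : D ∈ A := cfc_memA A haA _
  have hDne : D ≠ 0 := by
    intro h
    have := norm_apply_le_norm_cfc (fun s : ℝ => max (s - τ) 0) a
      (CStarAlgebra.norm_mem_spectrum_of_nonneg ha0)
    rw [← hD, h, norm_zero, Real.norm_of_nonneg (le_max_right _ _)] at this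
    linarith [le_max_left (‖a‖ - τ) 0]
  have hDs : IsSelfAdjoint D := IsSelfAdjoint.of_nonneg hD0
  set k := cut D 0 with hk
  have hkA : k ∈ A := cut_mem A hDA hDs 0
  have hkp : IsStarProjection k := isStarProjection_cut D 0
  have hker : ∀ v, D v = 0 → k v = v := fun v hv => by
    refine Submodule.starProjection_eq_self_iff.2 ?_
    show (shift D 0)⁺ v = 0
    rw [show shift D 0 = D by simp [shift], (CFC.posPart_eq_self D).2 hD0, hv]
  set e := 1 - k with he
  have heA : e ∈ A := sub_mem (one_mem A) hkA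
  have hep : IsStarProjection e := hkp.one_sub
  have hene : e ≠ 0 := by
    intro h
    refine hDne (ContinuousLinearMap.ext fun v => ?_)
    have hk1 : k = 1 := (sub_eq_zero.1 h).symm
    have := cut_mem_cutSpace D 0 v
    rw [← hk, hk1] at this
    have hm : (shift D 0)⁺ v = 0 := this
    rwa [show shift D 0 = D by simp [shift], (CFC.posPart_eq_self D).2 hD0] at hm
  set G := cfc (fun s : ℝ => (√(max s τ))⁻¹) a with hG
  have hGA : G ∈ A := cfc_memA A haA _
  have hGs : star G = G := (cfc_predicate _ a : IsSelfAdjoint G).star_eq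
  have hcm := fun {x y : H →L[ℂ] H} (hx : x ∈ A) (hy : y ∈ A) => (hφ.masa.comm x hx y hy).eq
  have hGG : e * (G * a * G) = e := by
    have hX : D * (G * a * G - 1) = 0 := cfc_inv_sqrt (IsSelfAdjoint.star_mul_self S) hτ0
    have hk' : k * (G * a * G - 1) = G * a * G - 1 := ContinuousLinearMap.ext fun v =>
      hker _ (congrArg (fun T : H →L[ℂ] H => T v) hX)
    have : e * (G * a * G - 1) = 0 := by rw [he, sub_mul, one_mul, hk', sub_self]
    rwa [mul_sub, mul_one, sub_eq_zero] at this
  set v := S * (G * e) with hv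
  have hGeA : G * e ∈ A := mul_mem hGA heA
  have hGes : star (G * e) = G * e := by
    rw [star_mul, hGs, hep.isSelfAdjoint.star_eq, hcm heA hGA]
  have hvv : star v * v = e := by
    calc star v * v = G * e * a * (G * e) := by simp only [hv, star_mul S, hGes, ha, mul_assoc]
      _ = e * (G * a * G) * e := by rw [hcm hGA heA]; simp only [mul_assoc]; rw [hcm hGA heA]
      _ = e := by rw [hGG, hep.isIdempotentElem.eq]
  have hve : v * (star v * v) = v := by
    rw [hvv, hv, mul_assoc, mul_assoc, hep.isIdempotentElem.eq]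
  have hvA : ∀ b ∈ A, v * b * star v ∈ A := fun b hb => by
    rw [hv, star_mul, hGes, show S * (G * e) * b * (G * e * star S) =
      S * (G * e * b * (G * e)) * star S by simp only [mul_assoc]]
    exact h2 _ (mul_mem (mul_mem hGeA hb) hGeA)
  have hvA' : ∀ b ∈ A, star v * b * v ∈ A := fun b hb => by
    rw [hv, star_mul, hGes, show G * e * star S * b * (S * (G * e)) =
      G * e * (star S * b * S) * (G * e) by simp only [mul_assoc]]
    exact mul_mem (mul_mem hGeA (h1 b hb)) hGeA
  have hvM : v ∈ M := mul_mem hS (hφ.masa.le _ hGeA)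
  have hPN : IsPN M A v := ⟨hvM, hve, hvA, hvA'⟩
  have hz : expE A φ (star v * S * (G * e)) = 0 := by
    rw [hφ.expE_mul_right hGeA (mul_mem (star_mem hvM) hS), hd.orth v hPN, zero_mul]
  rw [show star v * S * (G * e) = e by rw [mul_assoc, ← hv, hvv], hφ.expE_of_mem heA] at hz
  exact hene hz

/-- Elements orthogonal to all normalisers have diffuse conjugates. -/
theorem diffuse_of_inD (hφ : IsCState M A φ) {W : H →L[ℂ] H} (hW : InD M A φ W) :
    Diffuse A φ W := by
  have : Nonempty (Part A (1 : H →L[ℂ] H)) := ⟨Part.triv (one_mem A) (IsStarProjection.one _)⟩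
  have hD : ∀ {V S : H →L[ℂ] H}, InD M A φ V → S ∈ M → (∀ η : ℝ, 0 < η →
      ∃ (k : ℕ) (a c : (Fin k → Bool) → H →L[ℂ] H), (∀ i, a i ∈ A) ∧ (∀ i, c i ∈ A) ∧
        Single.sq φ (∑ i, a i * V * c i - S) ≤ η) → InD M A φ S := by
    intro V S hV hS h
    refine InD.of_approx hφ hS fun η hη => ?_
    obtain ⟨k, a, c, ha, hc, hsq⟩ := h η hη
    refine ⟨_, ?_, hsq⟩
    classical
    refine Finset.sum_induction (fun i => a i * V * c i) (InD M A φ) (fun _ _ => InD.add hφ)
      (InD.zero hφ) fun i _ => ?_
    exact (hV.mul_left_A hφ (ha i)).mul_right_A hφ (hc i)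
  by_contra hd
  obtain ⟨η, hη, hlow⟩ : ∃ η : ℝ, 0 < η ∧ ∀ P : Part A (1 : H →L[ℂ] H), η < ss A φ W P.p := by
    rw [Diffuse] at hd
    push Not at hd
    exact hd
  obtain ⟨S, hS, hSne, hS0, hSA, -, hSlim⟩ :=
    hφ.exists_intertwiner_lim hW.mem (hW.expE_zero hφ) (hη.trans_le (le_ciInf fun P => (hlow P).le))
  have hpos : 0 < IsCState.ssInf A φ (star S) := by
    by_contra hle
    rw [not_lt] at hle
    refine hSne ?_
    have hΛ : ∀ f ∈ A, bE A φ (star S) f = star S * f * S := fun f hf => by
      rw [bE, star_star]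
      exact hφ.expE_of_mem (hSA f hf)
    have hY : S * star S ∈ M := mul_mem hS (star_mem hS)
    have hss : ∀ Q : Part A (1 : H →L[ℂ] H),
        ss A φ (star S) Q.p = (φ (star S * pinch Q.p (S * star S) * S)).re := by
      intro Q
      simp only [ss, pinch, Finset.mul_sum, Finset.sum_mul, map_sum, Complex.re_sum]
      refine Finset.sum_congr rfl fun j _ => ?_
      rw [hΛ _ (Q.isPart.mem j), Single.sq, star_mul, star_mul, star_star,
        (Q.isPart.proj j).isSelfAdjoint.star_eq]
      simp only [mul_assoc]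
    set E := expE A φ (S * star S) with hE
    have hEA : E ∈ A := hφ.expE_mem hY
    have hne := refF_neBot hφ.masa.comm
    have hlim : Tendsto (fun Q : Part A (1 : H →L[ℂ] H) => ss A φ (star S) Q.p) (refF A)
        (𝓝 (φ (star S * E * S)).re) := by
      set Z := fun Q : Part A (1 : H →L[ℂ] H) => star S * (pinch Q.p (S * star S) - E) * S with hZ
      have hZM : ∀ Q, Z Q ∈ M := fun Q => mul_mem (mul_mem (star_mem hS)
        (sub_mem (hφ.pinch_memM Q hY) (hφ.masa.le _ hEA))) hS
      have hZ0 : Tendsto (fun Q => Single.sq φ (Z Q)) (refF A) (𝓝 0) := by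
        refine hφ.sq_tendsto_zero (c := ‖star S‖ * (‖S * star S‖ + ‖E‖) * ‖S‖) hZM
          (fun Q => norm_mul₃_le.trans ?_) fun v => ?_
        · gcongr
          exact (norm_sub_le _ _).trans (by linarith [Q.isPart.norm_pinch_le (S * star S)])
        · simp only [hZ, mul_apply_eq_comp, sub_apply]
          have := ((star S).continuous.tendsto _).comp
            ((hφ.tendsto_pinch hY (S v)).sub (tendsto_const_nhds (x := E (S v))))
          simpa [hE, map_sub, Function.comp_def] using this
      have hφZ : Tendsto (fun Q => (φ (Z Q)).re) (refF A) (𝓝 0) := by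
        refine squeeze_zero_norm (fun Q => ?_)
          (by simpa using (hZ0.sqrt.const_mul (√(Single.sq φ (1 : H →L[ℂ] H)))))
        have h := (Complex.abs_re_le_norm _).trans (hφ.norm_le_sqrt (one_mem M) (hZM Q))
        simpa using h
      have := hφZ.add (tendsto_const_nhds (x := (φ (star S * E * S)).re))
      rw [zero_add] at this
      refine this.congr fun Q => ?_
      rw [hss Q, hZ]
      simp [mul_sub, sub_mul]
    have hE0 : (φ (star S * E * S)).re ≤ 0 := by
      refine le_of_forall_pos_le_add fun κ hκ => ?_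
      rw [zero_add]
      obtain ⟨P, hP⟩ := exists_lt_of_ciInf_lt (hle.trans_lt hκ)
      refine le_of_tendsto hlim ?_
      filter_upwards [eventually_refines P] with Q hQ
      exact ((hφ.ss_refine_le (star_mem hS) Q.isPart P.isPart hQ).trans_lt hP).le
    obtain ⟨s, hs, hsa, hss'⟩ := exists_sqrt A hEA
      (hφ.expE_nonneg hY (mul_star_self_nonneg S))
    have hsS : s * S ∈ M := mul_mem (hφ.masa.le s hs) hS
    have hz : s * S = 0 := by
      refine hφ.faithful _ hsS (Complex.ext (le_antisymm ?_ (hφ.sq_nonneg' hsS)) (hφ.pos_im hsS))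
      rw [show star (s * S) * (s * S) = star S * E * S by
        rw [star_mul, hsa.star_eq, ← hss']; simp only [mul_assoc]]
      exact hE0
    have hES : E * (S * star S) = 0 := by
      rw [← mul_assoc, ← hss', mul_assoc s s S, hz]
      simp
    have hEE : E * E = 0 := by
      rw [hE, ← hφ.expE_mul_left hEA hY, hES]
      exact hφ.expE_of_mem (zero_mem A)
    have hEz : E = 0 := by
      rw [← CStarRing.star_mul_self_eq_zero_iff,
        (IsSelfAdjoint.of_nonneg (hφ.expE_nonneg hY (mul_star_self_nonneg S))).star_eq]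
      exact hEE
    exact (CStarRing.mul_star_self_eq_zero_iff S).1
      (hφ.expE_eq_zero hY (mul_star_self_nonneg S) hEz)
  obtain ⟨T, hT, hTne, -, hTA, hTA', hTlim⟩ := hφ.exists_intertwiner_lim (star_mem hS)
    (by rw [hφ.expE_star hS, hS0, star_zero]) hpos
  exact hTne (eq_zero_of_normalising hφ (hD ((hD hW hS hSlim).star hφ) hT hTlim) hTA
    (hTA' fun e he => by rw [star_star]; exact hSA e he))

end Vale.Agent.P078.General.Orbit
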