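import Vale.Agent.P078.Single.Exp

/-!
# Partial normalisers of a MASA, their finite sums and their orthogonal complement

`IsPN M A v`: `v` is a partial isometry of `M` with `v A v*` and `v* A v` inside `A`.
`IsSum M A s`: `s` is a finite sum of terms `a v` with `a ∈ A` and `v` a partial normaliser.
`InD M A φ d`: `E (v* d) = 0` for every partial normaliser `v`.
-/

namespace Vale.Agent.P078.General.Orbit

open Vale.Agent.P078.General.Single

universe u

variable {H : Type u} [NormedAddCommGroup H] [InnerProductSpace ℂ H] [CompleteSpace H]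

/-- A partial isometry of `M` normalising `A` in both directions. -/
structure IsPN (M A : VonNeumannAlgebra H) (v : H →L[ℂ] H) : Prop where
  mem : v ∈ M
  pi : v * (star v * v) = v
  conj : ∀ a ∈ A, v * a * star v ∈ A
  conj' : ∀ a ∈ A, star v * a * v ∈ A

/-- Finite sums of partial normalisers with coefficients in `A`. -/
inductive IsSum (M A : VonNeumannAlgebra H) : (H →L[ℂ] H) → Prop
  | zero : IsSum M A 0
  | term {a v : H →L[ℂ] H} : a ∈ A → IsPN M A v → IsSum M A (a * v)
  | add {s t : H →L[ℂ] H} : IsSum M A s → IsSum M A t → IsSum M A (s + t)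

/-- Orthogonal to all partial normalisers. -/
structure InD (M A : VonNeumannAlgebra H) (φ : (H →L[ℂ] H) →ₗ[ℂ] ℂ) (d : H →L[ℂ] H) : Prop where
  mem : d ∈ M
  orth : ∀ v, IsPN M A v → expE A φ (star v * d) = 0

end Vale.Agent.P078.General.Orbit
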