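import Vale.Agent.P078.Orbit.Mono

/-!
# Selfadjoint finite sums of normalisers approximating `x` on finitely many finite sums

For a list `u` of normalisers the selfadjoint finite sums `y` nearly minimising
`∑ sq ((x - y) u_j)` form Cauchy sequences, and the differences become orthogonal to all finite
sums: the variation `G* w + w* G`, `G = E (w d)`, detects every coefficient.
-/

namespace Vale.Agent.P078.General.Orbit

open scoped InnerProductSpace Topology ComplexOrder
open Filter Vale.Agent.P078.General.Single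

universe u

variable {H : Type u} [NormedAddCommGroup H] [InnerProductSpace ℂ H] [CompleteSpace H]
variable {M A : VonNeumannAlgebra H} {φ : (H →L[ℂ] H) →ₗ[ℂ] ℂ}

/-- A finite sum with the coefficients on the right. -/
theorem IsSum.exists_fin_right (hA : IsMasa M A) {s : H →L[ℂ] H} (hs : IsSum M A s) :
    ∃ (n : ℕ) (v b : Fin n → H →L[ℂ] H), (∀ i, IsPN M A (v i)) ∧ (∀ i, b i ∈ A) ∧
      s = ∑ i, v i * b i := by
  obtain ⟨n, a, v, ha, hv, rfl⟩ := hs.exists_fin
  exact ⟨n, v, fun i => star (v i) * a i * v i, hv, fun i => (hv i).conj' _ (ha i),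
    Finset.sum_congr rfl fun i _ => (hv i).A_mul hA (ha i)⟩

/-- The state of `u* Y u` sees only the expectation of `Y`. -/
theorem map_conj_expE (hφ : IsCState M A φ) {u Y : H →L[ℂ] H} (hu : IsPN M A u) (hY : Y ∈ M) :
    φ (star u * Y * u) = φ (star u * expE A φ Y * u) := by
  rw [← hu.expE_conj hφ hY, hφ.map_expE (mul_mem (mul_mem (star_mem hu.mem) hY) hu.mem)]

theorem re_variation (hφ : IsCState M A φ) {u w d : H →L[ℂ] H} (hu : IsPN M A u)
    (hw : IsPN M A w) (hd : d ∈ M) (hds : IsSelfAdjoint d) :
    let G := expE A φ (w * d)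
    (φ (star (d * u) * ((star G * w + star w * G) * u))).re =
      Single.sq φ (star G * w * u) + Single.sq φ (G * u) := by
  intro G
  have hA := hφ.masa
  have hc := fun {p q : H →L[ℂ] H} (hp : p ∈ A) (hq : q ∈ A) => (hA.comm p hp q hq).eq
  have hGA : G ∈ A := hφ.expE_mem (mul_mem hw.mem hd)
  have hGA' : star G ∈ A := star_mem hGA
  have hm1 : d * star G * w ∈ M := mul_mem (mul_mem hd (hA.le _ hGA')) hw.mem
  have hm2 : d * star w * G ∈ M := mul_mem (mul_mem hd (star_mem hw.mem)) (hA.le _ hGA)
  have e1 : expE A φ (d * star G * w) = star w * (G * star G) * w := by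
    calc expE A φ (d * star G * w) = expE A φ (d * w * (star w * star G * w)) := by
          rw [mul_assoc d (star G) w, hw.A_mul hA hGA', ← mul_assoc]
      _ = star w * G * w * (star w * star G * w) := by
          rw [hφ.expE_mul_right (hw.conj' _ hGA') (mul_mem hd hw.mem), hw.expE_mul_right' hφ hd]
      _ = _ := by
          have h := hw.star.conj_mul hA (b := star G) hGA
          rwa [star_star] at h
  have e2 : expE A φ (d * star w * G) = star G * G := by
    rw [hφ.expE_mul_right hGA (mul_mem hd (star_mem hw.mem)),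
      show d * star w = star (w * d) by rw [star_mul, hds.star_eq],
      hφ.expE_star (mul_mem hw.mem hd)]
  have e : star (d * u) * ((star G * w + star w * G) * u) =
      star u * (d * star G * w) * u + star u * (d * star w * G) * u := by
    rw [star_mul, hds.star_eq]
    simp only [mul_add, add_mul, mul_assoc]
  rw [e, map_add, map_conj_expE hφ hu hm1, map_conj_expE hφ hu hm2, e1, e2, Complex.add_re]
  congr 1
  · rw [Single.sq, star_mul, star_mul, star_star]
    simp only [mul_assoc]
  · rw [Single.sq, star_mul]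
    simp only [mul_assoc]

/-- Minimising selfadjoint sums: Cauchy on a given list, and orthogonal in the limit. -/
theorem exists_minimising (hφ : IsCState M A φ) {x : H →L[ℂ] H} (hx : x ∈ M)
    (hxs : IsSelfAdjoint x) {J : Type*} [Fintype J] (u : J → H →L[ℂ] H)
    (hu : ∀ j, IsPN M A (u j)) :
    ∃ y : ℕ → H →L[ℂ] H, (∀ n, IsSum M A (y n) ∧ IsSelfAdjoint (y n)) ∧
      (∀ η : ℝ, 0 < η → ∃ N, ∀ m, N ≤ m → ∀ n, N ≤ n → ∀ j,
        Single.sq φ ((y m - y n) * u j) ≤ η) ∧
      ∀ j, ∀ t, IsSum M A t →
        Tendsto (fun n => φ (star t * ((x - y n) * u j))) atTop (𝓝 0) := by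
  classical
  have hA := hφ.masa
  have hY : ∀ {y}, IsSum M A y → ∀ j, (x - y) * u j ∈ M := fun hy j =>
    mul_mem (sub_mem hx (hy.mem hA)) (hu j).mem
  let V := {y : H →L[ℂ] H // IsSum M A y ∧ IsSelfAdjoint y}
  haveI : Nonempty V := ⟨⟨0, IsSum.zero, .zero _⟩⟩
  set G : V → ℝ := fun y => ∑ j, Single.sq φ ((x - y.1) * u j) with hG
  have hG0 : ∀ y, 0 ≤ G y := fun y => Finset.sum_nonneg fun j _ => hφ.sq_nonneg' (hY y.2.1 j)
  have hbd : BddBelow (Set.range G) := ⟨0, by rintro _ ⟨y, rfl⟩; exact hG0 y⟩
  set g := ⨅ y, G y with hg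
  have hex : ∀ n : ℕ, ∃ y : V, G y < g + 1 / ((n : ℝ) + 1) := fun n =>
    exists_lt_of_ciInf_lt (by
      rw [← hg]
      linarith [show (0 : ℝ) < 1 / ((n : ℝ) + 1) by positivity])
  choose y hy using hex
  have hlim0 := tendsto_one_div_add_atTop_nhds_zero_nat (𝕜 := ℝ)
  refine ⟨fun n => (y n).1, fun n => (y n).2, fun η hη => ?_, ?_⟩
  · obtain ⟨N, hN⟩ := (hlim0.eventually (eventually_lt_nhds (show (0 : ℝ) < η / 4 by positivity))).exists
    refine ⟨N, fun m hm n hn j => ?_⟩
    have hb : ∀ k, N ≤ k → G (y k) < g + η / 4 := fun k hk => (hy k).trans_le (by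
      have : 1 / ((k : ℝ) + 1) ≤ 1 / ((N : ℝ) + 1) := by
        gcongr
      linarith)
    -- the midpoint
    let z : V := ⟨((2⁻¹ : ℝ) : ℂ) • ((y m).1 + (y n).1), ((y m).2.1.add (y n).2.1).smul _, by
      rw [IsSelfAdjoint, star_smul, star_add, (y m).2.2.star_eq, (y n).2.2.star_eq,
        Complex.star_def, Complex.conj_ofReal]⟩
    have hpar : ∀ j, Single.sq φ (((y m).1 - (y n).1) * u j) =
        2 * Single.sq φ ((x - (y m).1) * u j) + 2 * Single.sq φ ((x - (y n).1) * u j) -
          4 * Single.sq φ ((x - z.1) * u j) := by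
      intro j
      set a := (x - (y m).1) * u j with ha
      set b := (x - (y n).1) * u j with hb'
      have haM : a ∈ M := hY (y m).2.1 j
      have hbM : b ∈ M := hY (y n).2.1 j
      have e1 : ((y m).1 - (y n).1) * u j = b + (-1 : ℂ) • a := by
        simp only [ha, hb', neg_one_smul, sub_mul]; abel
      have e2 : (x - z.1) * u j = ((2⁻¹ : ℝ) : ℂ) • (b + (1 : ℂ) • a) := by
        have : x = ((2⁻¹ : ℝ) : ℂ) • (x + x) := by
          rw [← two_smul ℂ x, smul_smul]; norm_num
        simp only [ha, hb', one_smul, ← add_mul, ← smul_mul_assoc, z]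
        congr 1
        conv_lhs => rw [this]
        rw [← smul_sub]
        congr 1
        abel
      rw [e1, e2, IsCState.sq_smul, hφ.sq_add_smul hbM haM, hφ.sq_add_smul hbM haM]
      simp
      ring
    refine (Finset.single_le_sum (fun j _ => hφ.sq_nonneg'
      (mul_mem (sub_mem ((y m).2.1.mem hA) ((y n).2.1.mem hA)) (hu j).mem)) (Finset.mem_univ j)).trans ?_
    rw [Finset.sum_congr rfl fun j _ => hpar j, Finset.sum_sub_distrib, Finset.sum_add_distrib,
      ← Finset.mul_sum, ← Finset.mul_sum, ← Finset.mul_sum]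
    have h3 : g ≤ G z := ciInf_le hbd z
    have h4 := hb m hm
    have h5 := hb n hn
    simp only [hG] at h3 h4 h5
    linarith
  -- orthogonality
  set d := fun n => x - (y n).1 with hd
  have hdM : ∀ n, d n ∈ M := fun n => sub_mem hx ((y n).2.1.mem hA)
  have hds : ∀ n, IsSelfAdjoint (d n) := fun n => hxs.sub (y n).2.2
  have hzero : ∀ w, IsPN M A w → ∀ j,
      Tendsto (fun n => Single.sq φ (expE A φ (w * d n) * u j)) atTop (𝓝 0) := by
    intro w hw j
    have hb : ∀ n : ℕ, Single.sq φ (expE A φ (w * d n) * u j) ≤ 2 * (1 / ((n : ℝ) + 1)) := by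
      intro n
      set Gn := expE A φ (w * d n) with hGn
      have hGA : Gn ∈ A := hφ.expE_mem (mul_mem hw.mem (hdM n))
      have hs1 : IsSum M A (star Gn * w) := IsSum.term (star_mem hGA) hw
      have hs2 : IsSum M A (star w * Gn) := (IsSum.of_pn hw.star).mul hA (IsSum.of_memA hA hGA)
      set s := star Gn * w + star w * Gn with hs
      have hssum : IsSum M A s := hs1.add hs2
      have hss : IsSelfAdjoint s := by
        rw [IsSelfAdjoint, hs, star_add, star_mul, star_mul, star_star, star_star, add_comm]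
      set T := ∑ k, (Single.sq φ (star Gn * w * u k) + Single.sq φ (Gn * u k)) with hT
      have hsu : ∀ k, s * u k ∈ M := fun k => mul_mem (hssum.mem hA) (hu k).mem
      have h1 : ∀ k, Single.sq φ (s * u k) ≤
          2 * (Single.sq φ (star Gn * w * u k) + Single.sq φ (Gn * u k)) := by
        intro k
        rw [hs, add_mul]
        refine (hφ.sq_add_le (mul_mem (hs1.mem hA) (hu k).mem)
          (mul_mem (hs2.mem hA) (hu k).mem)).trans ?_
        rw [mul_assoc (star w) Gn]
        have h := (hφ.sq_mul_left (star_mem hw.mem) (mul_mem (hA.le _ hGA) (hu k).mem)).trans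
          (mul_le_of_le_one_left (hφ.sq_nonneg' (mul_mem (hA.le _ hGA) (hu k).mem))
            (pow_le_one₀ (norm_nonneg _) hw.star.norm_le_one))
        linarith
      have key : ∀ τ : ℝ, g ≤ G (y n) - 2 * τ * T + τ ^ 2 * (2 * T) := by
        intro τ
        let z : V := ⟨(y n).1 + (τ : ℂ) • s, (y n).2.1.add (hssum.smul _), (y n).2.2.add (by
          rw [IsSelfAdjoint, star_smul, hss.star_eq, Complex.star_def, Complex.conj_ofReal])⟩
        refine (ciInf_le hbd z).trans ?_
        have e : ∀ k, Single.sq φ ((x - z.1) * u k) = Single.sq φ (d n * u k) -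
            2 * τ * (Single.sq φ (star Gn * w * u k) + Single.sq φ (Gn * u k)) +
            τ ^ 2 * Single.sq φ (s * u k) := by
          intro k
          have e1 : (x - z.1) * u k = d n * u k + ((-τ : ℝ) : ℂ) • (s * u k) := by
            simp only [z, hd, sub_mul, add_mul, smul_mul_assoc, Complex.ofReal_neg, neg_smul]
            abel
          rw [e1, hφ.sq_add_smul (mul_mem (hdM n) (hu k).mem) (hsu k), Complex.normSq_ofReal,
            Complex.re_ofReal_mul, hs, hGn, re_variation hφ (hu k) hw (hdM n) (hds n)]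
          ring
        simp only [hG, e, Finset.sum_add_distrib, Finset.sum_sub_distrib, ← Finset.mul_sum, ← hT]
        have h2 : ∑ k, Single.sq φ (s * u k) ≤ 2 * T := by
          rw [hT, Finset.mul_sum]; exact Finset.sum_le_sum fun k _ => h1 k
        have := mul_le_mul_of_nonneg_left h2 (sq_nonneg τ)
        simp only [hd]
        linarith
      have hj : Single.sq φ (Gn * u j) ≤ T := by
        refine le_trans (le_add_of_nonneg_left (hφ.sq_nonneg' (mul_mem (hs1.mem hA) (hu j).mem)))
          (Finset.single_le_sum (fun k _ => add_nonneg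
            (hφ.sq_nonneg' (mul_mem (hs1.mem hA) (hu k).mem))
            (hφ.sq_nonneg' (mul_mem (hA.le _ hGA) (hu k).mem))) (Finset.mem_univ j))
      linarith [key (1 / 2), hy n]
    refine squeeze_zero (fun n => hφ.sq_nonneg'
      (mul_mem (hφ.expE_memM (mul_mem hw.mem (hdM n))) (hu j).mem)) hb ?_
    simpa using hlim0.const_mul 2
  intro j t ht
  induction ht with
  | zero => simp
  | @term a v ha hv =>
    have ha' := hv.conj' _ (star_mem ha)
    set c := star v * star a * v with hc
    set w := u j * star v with hwdef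
    have hw : IsPN M A w := (hu j).mul hA hv.star
    have hb : ∀ n, ‖φ (star (a * v) * (d n * u j))‖ ≤
        √(Single.sq φ (star c)) * √(Single.sq φ (expE A φ (w * d n) * u j)) := by
      intro n
      have hG : expE A φ (w * d n) ∈ A := hφ.expE_mem (mul_mem hw.mem (hdM n))
      have hm : star v * d n * u j ∈ M :=
        mul_mem (mul_mem (star_mem hv.mem) (hdM n)) (hu j).mem
      have e1 : star (a * v) * (d n * u j) = c * (star v * d n * u j) := by
        have h := hv.star.mul_A hA (star_mem ha)
        rw [star_star] at h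
        rw [star_mul, h]
        simp only [hc, mul_assoc]
      have e2 : expE A φ (star v * d n * u j) = star (u j) * expE A φ (w * d n) * u j := by
        rw [(hu j).expE_mul_right' hφ (mul_mem (star_mem hv.mem) (hdM n)), ← mul_assoc (u j)]
      rw [e1, ← hφ.map_expE (mul_mem (hA.le _ ha') hm), hφ.expE_mul_left ha' hm, e2]
      have hm2 : star (u j) * expE A φ (w * d n) * u j ∈ M := hA.le _ ((hu j).conj' _ hG)
      have h := hφ.norm_le_sqrt (star_mem (hA.le _ ha')) hm2
      rw [star_star] at h
      refine h.trans (mul_le_mul_of_nonneg_left (Real.sqrt_le_sqrt ?_) (Real.sqrt_nonneg _))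
      rw [mul_assoc]
      exact (hφ.sq_mul_left (star_mem (hu j).mem) (mul_mem (hA.le _ hG) (hu j).mem)).trans
        (mul_le_of_le_one_left (hφ.sq_nonneg' (mul_mem (hA.le _ hG) (hu j).mem))
          (pow_le_one₀ (norm_nonneg _) (hu j).star.norm_le_one))
    refine squeeze_zero_norm hb ?_
    simpa using ((hzero w hw j).sqrt).const_mul (√(Single.sq φ (star c)))
  | add _ _ i1 i2 =>
    refine Tendsto.congr (fun n => ?_) (by simpa using i1.add i2)
    rw [star_add, add_mul, map_add]

end Vale.Agent.P078.General.Orbit
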