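import Vale.Agent.P078.Orbit.Mono
import Vale.Agent.P078.Single.Moments

/-!
# Statements of the monomial module (piece 2 of notes/P078/TYPE3_OPSIDE_helper4.md)

Not imported by hand-ins.
-/

namespace Vale.Agent.P078.General.Orbit.Iface

open Vale.Agent.P078.General.Single

universe u

variable {H : Type u} [NormedAddCommGroup H] [InnerProductSpace ℂ H] [CompleteSpace H]
variable (M A : VonNeumannAlgebra H) (φ : (H →L[ℂ] H) →ₗ[ℂ] ℂ)

/-- Orbit/Atoms: on the atoms of one partition all coincidences of finitely many normalisers are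
constant: two points coincide exactly or have orthogonal images. -/
def StmtAtoms : Prop :=
  IsCState M A φ → ∀ (n : ℕ) (v : Fin n → H →L[ℂ] H), (∀ i, IsPN M A (v i)) →
    ∃ P : Part A (1 : H →L[ℂ] H), ∀ Q : Part A (1 : H →L[ℂ] H), Part.Refines Q P → ∀ k,
      (∀ i, star (v i) * v i * Q.p k = Q.p k ∨ v i * Q.p k = 0) ∧
      ∀ i j, (∃ a ∈ A, v i * Q.p k = v j * a) ∨
        v i * Q.p k * star (v i) * (v j * Q.p k * star (v j)) = 0

/-- Orbit/Criterion: elements orthogonal to the normalisers have diffuse conjugates. -/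
def StmtDiffuse : Prop :=
  IsCState M A φ → ∀ d, InD M A φ d → Diffuse A φ d

/-- Orbit/Approx: the atomic part of a selfadjoint element, with bounded finite approximations. -/
def StmtAtomic : Prop :=
  IsCState M A φ → ∀ x ∈ M, IsSelfAdjoint x → ∃ e ∈ M, IsSelfAdjoint e ∧ ‖e‖ ≤ 2 * ‖x‖ ∧
    InD M A φ (x - e) ∧ ∀ η : ℝ, 0 < η →
      ∃ s, IsSum M A s ∧ IsSelfAdjoint s ∧ ‖s‖ ≤ 2 * ‖x‖ ∧ sq φ (e - s) ≤ η

/-- Orbit/Approx: the same for every element. -/
def StmtAtomic' : Prop :=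
  IsCState M A φ → ∀ x ∈ M, ∃ e ∈ M, InD M A φ (x - e) ∧ ∀ η : ℝ, 0 < η →
    ∃ s, IsSum M A s ∧ ‖s‖ ≤ 4 * ‖x‖ ∧ sq φ (e - s) ≤ η

end Vale.Agent.P078.General.Orbit.Iface
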