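import Vale.Agent.P078.Orbit.Space
import Vale.Agent.P078.Orbit.Good

/-!
# The compression of `x` to the finite sums of normalisers

`IsRep`: a Hilbert space `G` containing `M` with the inner product of the state, the closure `W` of
the finite sums and the compression `K` of `x` to it. The selfadjoint sums `y` of `Orbit/Good` act
like `K` on finitely many vectors, so `g (y)`, `g t = 2 t / (1 + t²)`, acts like `g (K)`.
-/

namespace Vale.Agent.P078.General.Orbit

open scoped InnerProductSpace Topology ComplexOrder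
open Filter Vale.Agent.P078.General.Single Polynomial

universe u

variable {H : Type u} [NormedAddCommGroup H] [InnerProductSpace ℂ H] [CompleteSpace H]
variable {M A : VonNeumannAlgebra H} {φ : (H →L[ℂ] H) →ₗ[ℂ] ℂ}

theorem abs_le_norm_of_mem {B : Type*} [CStarAlgebra B] {a : B} (ha : IsSelfAdjoint a) {t : ℝ}
    (ht : t ∈ spectrum ℝ a) : |t| ≤ ‖a‖ := by
  have h := norm_apply_le_norm_cfc (fun s : ℝ => s) a ht
  rwa [cfc_id' ℝ a, Real.norm_eq_abs] at h

noncomputable def gfun (t : ℝ) : ℝ := 2 * t / (1 + t ^ 2)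

noncomputable def ifun (t : ℝ) : ℝ := 1 / (1 + t ^ 2)

noncomputable def hfun (t : ℝ) : ℝ := t / (1 + √(1 - t ^ 2))

theorem continuous_gfun : Continuous gfun :=
  Continuous.div (by fun_prop) (by fun_prop) fun t => by positivity

theorem continuous_ifun : Continuous ifun :=
  Continuous.div (by fun_prop) (by fun_prop) fun t => by positivity

theorem continuous_hfun : Continuous hfun :=
  Continuous.div (by fun_prop) (by fun_prop) fun t => by positivity

theorem abs_gfun_le (t : ℝ) : |gfun t| ≤ 1 := by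
  have h : 0 < 1 + t ^ 2 := by positivity
  rw [gfun, abs_div, abs_of_pos h, div_le_one h, abs_le]
  constructor <;> nlinarith [sq_nonneg (t - 1), sq_nonneg (t + 1)]

theorem abs_gfun_mul_le (t : ℝ) : |gfun t * t| ≤ 2 := by
  have h : 0 < 1 + t ^ 2 := by positivity
  rw [gfun, div_mul_eq_mul_div, abs_div, abs_of_pos h, div_le_iff₀ h, abs_le]
  constructor <;> nlinarith [mul_self_nonneg t]

theorem abs_hfun_le {t : ℝ} (ht : |t| ≤ 1) : |hfun t| ≤ 1 := by
  have h1 := Real.sqrt_nonneg (1 - t ^ 2)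
  rw [hfun, abs_div, abs_of_pos (by linarith : (0 : ℝ) < 1 + √(1 - t ^ 2)),
    div_le_one (by linarith : (0 : ℝ) < 1 + √(1 - t ^ 2))]
  linarith

theorem hfun_gfun {t : ℝ} (ht : |t| ≤ 1) : hfun (gfun t) = t := by
  have h : 0 < 1 + t ^ 2 := by positivity
  have h1 : 0 ≤ (1 - t ^ 2) / (1 + t ^ 2) := by
    refine div_nonneg ?_ h.le
    nlinarith [sq_abs t, abs_nonneg t]
  have e : 1 - gfun t ^ 2 = ((1 - t ^ 2) / (1 + t ^ 2)) ^ 2 := by
    rw [gfun]; field_simp; ring
  rw [hfun, e, Real.sqrt_sq h1, gfun]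
  field_simp
  ring

/-- The calculus of a selfadjoint contraction used below. -/
theorem exists_calc {W : Type*} [NormedAddCommGroup W] [InnerProductSpace ℂ W]
    [CompleteSpace W] (K : W →L[ℂ] W) (hKs : IsSelfAdjoint K) (hKn : ‖K‖ ≤ 1) :
    ∃ gK iK : W →L[ℂ] W, ‖gK‖ ≤ 1 ∧ gK = (2 : ℝ) • (K * iK) ∧ iK + K * (K * iK) = 1 ∧
      ∀ (p : ℝ[X]) (η : ℝ), 0 ≤ η → (∀ t ∈ Set.Icc (-1 : ℝ) 1, |p.eval t - hfun t| < η) →
        ∀ v, ‖(aeval gK p) v - K v‖ ≤ η * ‖v‖ := by
  have hKid : cfc (fun s : ℝ => s) K = K := cfc_id' ℝ K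
  have e1 : cfc (fun s => s * ifun s) K = K * cfc ifun K := by
    rw [cfc_mul (fun s => s) ifun K continuousOn_id continuous_ifun.continuousOn, hKid]
  refine ⟨cfc gfun K, cfc ifun K, norm_cfc_le zero_le_one fun t _ => ?_, ?_, ?_,
    fun p η hη hp v => ?_⟩
  · rw [Real.norm_eq_abs]; exact abs_gfun_le t
  · rw [← e1, ← cfc_smul (2 : ℝ) (fun s => s * ifun s) K
      (continuous_id.mul continuous_ifun).continuousOn]
    refine cfc_congr fun t _ => ?_
    simp only [gfun, ifun, smul_eq_mul]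
    ring
  · have e2 : cfc (fun s => s * (s * ifun s)) K = K * (K * cfc ifun K) := by
      rw [cfc_mul (fun s => s) (fun s => s * ifun s) K continuousOn_id
        (continuous_id.mul continuous_ifun).continuousOn, e1, hKid]
    rw [← e2, ← cfc_add K ifun (fun s => s * (s * ifun s)) continuous_ifun.continuousOn
        (continuous_id.mul (continuous_id.mul continuous_ifun)).continuousOn, ← cfc_const_one ℝ K]
    refine cfc_congr fun t _ => ?_
    simp only [ifun]
    field_simp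
  · rw [← sub_apply]
    refine (ContinuousLinearMap.le_opNorm _ v).trans (mul_le_mul_of_nonneg_right ?_ (norm_nonneg v))
    rw [← cfc_polynomial p (cfc gfun K),
      ← cfc_comp' p.eval gfun K p.continuous.continuousOn continuous_gfun.continuousOn]
    nth_rewrite 2 [← hKid]
    rw [← cfc_sub (fun t => p.eval (gfun t)) (fun t => t) K
      (p.continuous.comp continuous_gfun).continuousOn continuousOn_id]
    refine norm_cfc_le hη fun t ht => ?_
    have h2 := hp (gfun t) (abs_le.1 (abs_gfun_le t))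
    rw [hfun_gfun ((abs_le_norm_of_mem hKs ht).trans hKn)] at h2
    rw [Real.norm_eq_abs]
    exact h2.le

variable {G W : Type u} [NormedAddCommGroup G] [InnerProductSpace ℂ G] [CompleteSpace G]
variable [NormedAddCommGroup W] [InnerProductSpace ℂ W] [CompleteSpace W]

/-- The compression of `x` to the closure of the finite sums. -/
structure IsRep (M A : VonNeumannAlgebra H) (φ : (H →L[ℂ] H) →ₗ[ℂ] ℂ) (x : H →L[ℂ] H)
    (ι : (H →L[ℂ] H) → G) (j : W →ₗᵢ[ℂ] G) (κ : (H →L[ℂ] H) → W) (K : W →L[ℂ] W) : Prop where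
  add : ∀ a ∈ M, ∀ b ∈ M, ι (a + b) = ι a + ι b
  smul : ∀ a ∈ M, ∀ c : ℂ, ι (c • a) = c • ι a
  inner : ∀ a ∈ M, ∀ b ∈ M, ⟪ι a, ι b⟫_ℂ = φ (star a * b)
  emb : ∀ s, IsSum M A s → j (κ s) = ι s
  dense : ∀ (a : W) (δ : ℝ), 0 < δ → ∃ s, IsSum M A s ∧ ‖ι s - j a‖ ≤ δ
  kinner : ∀ t, IsSum M A t → ∀ s, IsSum M A s → ⟪ι t, j (K (κ s))⟫_ℂ = φ (star t * (x * s))
  sa : IsSelfAdjoint K
  norm : ‖K‖ ≤ 1

/-- Compressions exist. -/
theorem exists_rep (hφ : IsCState M A φ) {x : H →L[ℂ] H} (hx : x ∈ M) (hxs : IsSelfAdjoint x)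
    (hx1 : ‖x‖ ≤ 1) :
    ∃ (G W : Type u) (_ : NormedAddCommGroup G) (_ : InnerProductSpace ℂ G) (_ : CompleteSpace G)
      (_ : NormedAddCommGroup W) (_ : InnerProductSpace ℂ W) (_ : CompleteSpace W)
      (ι : (H →L[ℂ] H) → G) (j : W →ₗᵢ[ℂ] G) (κ : (H →L[ℂ] H) → W) (K : W →L[ℂ] W),
      IsRep M A φ x ι j κ K := by
  classical
  have hA := hφ.masa
  obtain ⟨G, _, _, _, ι, X, hadd, hsmul, hinner, hX, hXs, hXn⟩ := exists_space hφ hx hxs
  have hone : (1 : H →L[ℂ] H) ∈ M := one_mem M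
  have hzero : ι 0 = 0 := by simpa using hsmul 1 hone 0
  -- the closure of the finite sums
  let V0 : Submodule ℂ G :=
    { carrier := {g | ∃ s, IsSum M A s ∧ ι s = g}
      zero_mem' := ⟨0, IsSum.zero, hzero⟩
      add_mem' := by
        rintro _ _ ⟨s, hs, rfl⟩ ⟨t, ht, rfl⟩
        exact ⟨s + t, hs.add ht, hadd s (hs.mem hA) t (ht.mem hA)⟩
      smul_mem' := by
        rintro c _ ⟨s, hs, rfl⟩
        exact ⟨c • s, hs.smul c, hsmul s (hs.mem hA) c⟩ }
  set V : Submodule ℂ G := V0.topologicalClosure with hV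
  haveI : CompleteSpace V := V0.isClosed_topologicalClosure.completeSpace_coe
  have hmemV : ∀ {s}, IsSum M A s → ι s ∈ V := fun hs =>
    V0.le_topologicalClosure ⟨_, hs, rfl⟩
  have hdense : ∀ (a : V) (δ : ℝ), 0 < δ → ∃ s, IsSum M A s ∧ ‖ι s - (a : G)‖ ≤ δ := by
    intro a δ hδ
    have ha : (a : G) ∈ closure (V0 : Set G) := by
      rw [← Submodule.topologicalClosure_coe]; exact a.2
    obtain ⟨_, ⟨s, hs, rfl⟩, hd⟩ := Metric.mem_closure_iff.1 ha δ hδ
    exact ⟨s, hs, by rw [← dist_eq_norm, dist_comm]; exact hd.le⟩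
  let K : V →L[ℂ] V := V.orthogonalProjectionOnto.comp (X.comp V.subtypeL)
  have hKinner : ∀ a b : V, ⟪(a : G), (K b : G)⟫_ℂ = ⟪(a : G), X b⟫_ℂ := fun a b =>
    V.inner_orthogonalProjectionOnto_eq_of_mem_left a (X b)
  have hKs : IsSelfAdjoint K := by
    refine ContinuousLinearMap.isSelfAdjoint_iff_isSymmetric.2 fun a b => ?_
    show ⟪K a, b⟫_ℂ = ⟪a, K b⟫_ℂ
    rw [Submodule.coe_inner, Submodule.coe_inner, hKinner a b, ← inner_conj_symm (K a : G) (b : G),
      hKinner b a, inner_conj_symm]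
    exact (ContinuousLinearMap.isSelfAdjoint_iff_isSymmetric.1 hXs (a : G) (b : G))
  have hKn : ‖K‖ ≤ 1 := by
    refine ContinuousLinearMap.opNorm_le_bound _ zero_le_one fun a => ?_
    rw [one_mul]
    refine (V.orthogonalProjectionOnto.le_opNorm _).trans ?_
    refine (mul_le_of_le_one_left (norm_nonneg _) V.orthogonalProjectionOnto_norm_le).trans ?_
    exact (X.le_opNorm _).trans (mul_le_of_le_one_left (norm_nonneg _) (hXn.trans hx1))
  refine ⟨G, V, inferInstance, inferInstance, inferInstance, inferInstance, inferInstance,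
    inferInstance, ι, V.subtypeₗᵢ, fun s => if hs : IsSum M A s then ⟨ι s, hmemV hs⟩ else 0, K,
    ⟨hadd, hsmul, hinner, fun s hs => by rw [dif_pos hs]; rfl, hdense, fun t ht s hs => ?_,
      hKs, hKn⟩⟩
  rw [dif_pos hs]
  refine (hKinner ⟨ι t, hmemV ht⟩ ⟨ι s, hmemV hs⟩).trans ?_
  show ⟪ι t, X (ι s)⟫_ℂ = _
  rw [hX s (hs.mem hA), hinner t (ht.mem hA) _ (mul_mem hx (hs.mem hA))]

namespace IsRep

variable {x : H →L[ℂ] H} {ι : (H →L[ℂ] H) → G} {j : W →ₗᵢ[ℂ] G} {κ : (H →L[ℂ] H) → W}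
  {K : W →L[ℂ] W}

theorem sub (hR : IsRep M A φ x ι j κ K) {a b : H →L[ℂ] H} (ha : a ∈ M) (hb : b ∈ M) :
    ι (a - b) = ι a - ι b := by
  rw [sub_eq_add_neg, ← neg_one_smul ℂ b, hR.add a ha _ (smul_mem' M hb _), hR.smul b hb,
    neg_one_smul, ← sub_eq_add_neg]

theorem norm_sq (hR : IsRep M A φ x ι j κ K) {a : H →L[ℂ] H} (ha : a ∈ M) :
    ‖ι a‖ ^ 2 = Single.sq φ a := by
  rw [← inner_self_eq_norm_sq (𝕜 := ℂ), hR.inner a ha a ha]
  rfl

theorem norm_eq (hR : IsRep M A φ x ι j κ K) {a : H →L[ℂ] H} (ha : a ∈ M) :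
    ‖ι a‖ = √(Single.sq φ a) := by
  rw [← hR.norm_sq ha, Real.sqrt_sq (norm_nonneg _)]

theorem left (hR : IsRep M A φ x ι j κ K) (hφ : IsCState M A φ) {T a : H →L[ℂ] H} (hT : T ∈ M)
    (ha : a ∈ M) : ‖ι (T * a)‖ ≤ ‖T‖ * ‖ι a‖ := by
  refine le_of_pow_le_pow_left₀ two_ne_zero (by positivity) ?_
  rw [mul_pow, hR.norm_sq (mul_mem hT ha), hR.norm_sq ha]
  exact hφ.sq_mul_left hT ha

theorem right (hR : IsRep M A φ x ι j κ K) (hφ : IsCState M A φ) {T b : H →L[ℂ] H} (hT : T ∈ M)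
    (hb : b ∈ A) : ‖ι (T * b)‖ ≤ ‖b‖ * ‖ι T‖ := by
  refine le_of_pow_le_pow_left₀ two_ne_zero (by positivity) ?_
  rw [mul_pow, hR.norm_sq (mul_mem hT (hφ.masa.le b hb)), hR.norm_sq hT]
  exact hφ.sq_mul_right hT hb

theorem sum (hR : IsRep M A φ x ι j κ K) {β : Type*} (t : Finset β) (f : β → H →L[ℂ] H)
    (hf : ∀ l, f l ∈ M) : ι (∑ l ∈ t, f l) = ∑ l ∈ t, ι (f l) := by
  classical
  induction t using Finset.induction_on with
  | empty => simpa using hR.smul 1 (one_mem M) 0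
  | insert l t hl ih =>
    rw [Finset.sum_insert hl, Finset.sum_insert hl, hR.add _ (hf l) _
      (sum_mem fun l' _ => hf l'), ih]

/-- Selfadjoint sums acting like `K` on finitely many sums. -/
theorem exists_good (hR : IsRep M A φ x ι j κ K) (hφ : IsCState M A φ) (hx : x ∈ M)
    (hxs : IsSelfAdjoint x) {k : ℕ} (c : Fin k → {s // IsSum M A s}) {δ : ℝ} (hδ : 0 < δ) :
    ∃ y, IsSum M A y ∧ IsSelfAdjoint y ∧ ∀ i, ‖ι (y * (c i).1) - j (K (κ (c i).1))‖ ≤ δ := by
  classical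
  have hA := hφ.masa
  choose n v b hv hb he using fun i => (c i).2.exists_fin_right hA
  obtain ⟨y, hy, hcau, horth⟩ := exists_minimising hφ hx hxs
    (fun l : Σ i, Fin (n i) => v l.1 l.2) (fun l => hv l.1 l.2)
  have hyM : ∀ m, y m ∈ M := fun m => (hy m).1.mem hA
  have hcs : ∀ i, CauchySeq fun m => ι (y m * (c i).1) := by
    intro i
    refine Metric.cauchySeq_iff.2 fun η hη => ?_
    set B := ∑ l, ‖b i l‖ with hB
    have hB0 : 0 ≤ B := Finset.sum_nonneg fun l _ => norm_nonneg _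
    set η' := η / (B + 1) / 2 with hη'
    have hη'0 : 0 < η' := by positivity
    obtain ⟨N, hN⟩ := hcau (η' ^ 2) (by positivity)
    refine ⟨N, fun m hm m' hm' => ?_⟩
    have hterm : ∀ l, (y m - y m') * v i l * b i l ∈ M := fun l =>
      mul_mem (mul_mem (sub_mem (hyM m) (hyM m')) (hv i l).mem) (hA.le _ (hb i l))
    rw [dist_eq_norm, ← hR.sub (mul_mem (hyM m) ((c i).2.mem hA))
      (mul_mem (hyM m') ((c i).2.mem hA)), ← sub_mul, he i, Finset.mul_sum,
      Finset.sum_congr rfl fun l _ => (mul_assoc (y m - y m') (v i l) (b i l)).symm,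
      hR.sum _ _ hterm]
    refine (norm_sum_le _ _).trans_lt ?_
    have h1 : ∀ l, ‖ι ((y m - y m') * v i l * b i l)‖ ≤ ‖b i l‖ * η' := fun l => by
      refine (hR.right hφ (mul_mem (sub_mem (hyM m) (hyM m')) (hv i l).mem) (hb i l)).trans ?_
      refine mul_le_mul_of_nonneg_left ?_ (norm_nonneg _)
      rw [hR.norm_eq (mul_mem (sub_mem (hyM m) (hyM m')) (hv i l).mem)]
      exact (Real.sqrt_le_left hη'0.le).2 (hN m hm m' hm' ⟨i, l⟩)
    refine (Finset.sum_le_sum fun l _ => h1 l).trans_lt ?_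
    rw [← Finset.sum_mul, ← hB]
    have : (B + 1) * η' = η / 2 := by rw [hη']; field_simp
    nlinarith
  choose ξ hξ using fun i => cauchySeq_tendsto_of_complete (hcs i)
  have hlim : ∀ i, ξ i = j (K (κ (c i).1)) := by
    intro i
    obtain ⟨a, ha⟩ := j.isometry.isClosedEmbedding.isClosed_range.mem_of_tendsto (hξ i)
      (.of_forall fun m => ⟨κ (y m * (c i).1), hR.emb _ ((hy m).1.mul hA (c i).2)⟩)
    rw [← ha]
    congr 1
    refine sub_eq_zero.1 (norm_le_zero_iff.1 ?_)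
    set D := a - K (κ (c i).1) with hD
    have horthD : ∀ t, IsSum M A t → ⟪ι t, j D⟫_ℂ = 0 := by
      intro t ht
      rw [hD, map_sub, inner_sub_right, ha, hR.kinner t ht _ (c i).2, sub_eq_zero]
      refine tendsto_nhds_unique (tendsto_const_nhds.inner (hξ i)) ?_
      have hz : Tendsto (fun m => φ (star t * ((x - y m) * (c i).1))) atTop (𝓝 0) := by
        have := tendsto_finsetSum (Finset.univ : Finset (Fin (n i))) fun l _ =>
          horth ⟨i, l⟩ (t * star (b i l))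
            (ht.mul hA (IsSum.of_memA hA (star_mem (hb i l))))
        rw [Finset.sum_const_zero] at this
        refine this.congr fun m => ?_
        rw [he i, Finset.mul_sum, Finset.mul_sum, map_sum]
        refine Finset.sum_congr rfl fun l _ => ?_
        have hM' : star t * ((x - y m) * v i l) ∈ M := mul_mem (star_mem (ht.mem hA))
          (mul_mem (sub_mem hx (hyM m)) (hv i l).mem)
        rw [star_mul, star_star, mul_assoc (b i l), hφ.central _ (hb i l) _ hM']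
        simp only [mul_assoc]
      have := (tendsto_const_nhds (x := φ (star t * (x * (c i).1)))).sub hz
      rw [sub_zero] at this
      refine this.congr fun m => ?_
      rw [hR.inner t (ht.mem hA) _ (mul_mem (hyM m) ((c i).2.mem hA)), ← map_sub, sub_mul,
        mul_sub, sub_sub_cancel]
    refine le_of_forall_pos_le_add fun η hη => ?_
    rw [zero_add]
    obtain ⟨t, ht, htd⟩ := hR.dense D η hη
    have h1 : ‖D‖ ^ 2 ≤ η * ‖D‖ := by
      have e : ⟪j D - ι t, j D⟫_ℂ = ⟪j D, j D⟫_ℂ := by rw [inner_sub_left, horthD t ht, sub_zero]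
      have h2 := norm_inner_le_norm (𝕜 := ℂ) (j D - ι t) (j D)
      rw [e, inner_self_eq_norm_sq_to_K, norm_pow, RCLike.norm_ofReal, abs_norm,
        norm_sub_rev (j D), j.norm_map] at h2
      exact h2.trans (mul_le_mul_of_nonneg_right htd (norm_nonneg _))
    nlinarith [norm_nonneg D]
  obtain ⟨m, hm⟩ := (eventually_all.2 fun i =>
    Metric.tendsto_nhds.1 (hξ i) δ hδ).exists
  refine ⟨y m, (hy m).1, (hy m).2, fun i => ?_⟩
  rw [← hlim i, ← dist_eq_norm]
  exact (hm i).le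

theorem step (hR : IsRep M A φ x ι j κ K) (hφ : IsCState M A φ) {gK iK : W →L[ℂ] W}
    (hK1 : gK = (2 : ℝ) • (K * iK)) (hK2 : iK + K * (K * iK) = 1) (w : {s // IsSum M A s}) {η : ℝ}
    (hη : 0 < η) :
    ∃ (c c1 : {s // IsSum M A s}) (δ : ℝ) (w' : {s // IsSum M A s}), 0 < δ ∧
      ‖ι w'.1 - j (gK (κ w.1))‖ ≤ η ∧
      ∀ y, IsSum M A y → IsSelfAdjoint y → ‖ι (y * c.1) - j (K (κ c.1))‖ ≤ δ →
        ‖ι (y * c1.1) - j (K (κ c1.1))‖ ≤ δ → ‖ι (cfc gfun y * w.1) - ι w'.1‖ ≤ η := by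
  have hA := hφ.masa
  have hKle : ∀ a : W, ‖j (K a)‖ ≤ ‖j a‖ := fun a => by
    rw [j.norm_map, j.norm_map]
    exact (K.le_opNorm a).trans (mul_le_of_le_one_left (norm_nonneg _) hR.norm)
  set δ := η / 20 with hδdef
  have hδ : 0 < δ := by positivity
  obtain ⟨c, hc, hcd⟩ := hR.dense (iK (κ w.1)) δ hδ
  obtain ⟨c1, hc1, hc1d⟩ := hR.dense (K (κ c)) δ hδ
  obtain ⟨c2, hc2, hc2d⟩ := hR.dense (K (κ c1)) δ hδ
  have hcM := hc.mem hA
  have hc1M := hc1.mem hA
  have hc2M := hc2.mem hA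
  have hwM := w.2.mem hA
  -- `c1` and `c2` against the exact vectors
  have h1 : ‖ι c1 - (j (K (iK (κ w.1))))‖ ≤ 2 * δ := by
    have := hKle ((κ c) - iK (κ w.1))
    rw [map_sub, map_sub, map_sub, hR.emb _ hc] at this
    linarith [norm_sub_le_norm_sub_add_norm_sub (ι c1) (j (K (κ c)))
      (j (K (iK (κ w.1))))]
  have h2 : ‖ι c2 - (j (K (K (iK (κ w.1)))))‖ ≤ 3 * δ := by
    have := hKle ((κ c1) - K (iK (κ w.1)))
    rw [map_sub, map_sub, map_sub, hR.emb _ hc1] at this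
    linarith [norm_sub_le_norm_sub_add_norm_sub (ι c2) (j (K (κ c1)))
      (j (K (K (iK (κ w.1)))))]
  refine ⟨⟨c, hc⟩, ⟨c1, hc1⟩, δ, ⟨((2 : ℝ) : ℂ) • c1, hc1.smul _⟩, hδ, ?_, ?_⟩
  · rw [hR.smul c1 hc1M, hK1]
    rw [smul_apply, ← Complex.coe_smul 2 ((K * iK) (κ w.1)), map_smul, mul_apply_eq_comp,
      ← smul_sub, norm_smul, Complex.norm_real, Real.norm_of_nonneg zero_le_two]
    linarith
  intro y hy hys g0 g1
  have hyM := hy.mem hA
  have hgy : cfc gfun y ∈ M :=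
    mem_of_commute_commutant M fun z hz =>
      (Commute.cfc_real (VonNeumannAlgebra.mem_commutant_iff.1 hz y hyM) gfun).symm
  have hgyn : ‖cfc gfun y‖ ≤ 1 := norm_cfc_le zero_le_one fun t _ => by
    rw [Real.norm_eq_abs]; exact abs_gfun_le t
  have hgyy : ‖cfc gfun y * y‖ ≤ 2 := by
    nth_rewrite 2 [← cfc_id' ℝ y]
    rw [← cfc_mul gfun (fun s => s) y continuous_gfun.continuousOn continuousOn_id]
    exact norm_cfc_le zero_le_two fun t _ => by rw [Real.norm_eq_abs]; exact abs_gfun_mul_le t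
  have hid : cfc gfun y + cfc gfun y * (y * y) = y + y := by
    have e : cfc (fun s : ℝ => s * s) y = y * y := by
      rw [cfc_mul (fun s : ℝ => s) (fun s => s) y, cfc_id' ℝ y]
    have e' : cfc (fun s : ℝ => s + s) y = y + y := by
      rw [cfc_add y (fun s : ℝ => s) (fun s => s), cfc_id' ℝ y]
    rw [← e, ← e', ← cfc_mul gfun (fun s => s * s) y continuous_gfun.continuousOn
      (by fun_prop), ← cfc_add y gfun (fun s => gfun s * (s * s)) continuous_gfun.continuousOn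
      (continuous_gfun.mul (by fun_prop)).continuousOn]
    refine cfc_congr fun t _ => ?_
    have : (0 : ℝ) < 1 + t ^ 2 := by positivity
    simp only [gfun]
    field_simp
    ring
  
  
  have b1 : ‖ι (y * c - c1)‖ ≤ 2 * δ := by
    rw [hR.sub (mul_mem hyM hcM) hc1M]
    linarith [norm_sub_le_norm_sub_add_norm_sub (ι (y * c)) (j (K (κ c))) (ι c1),
      norm_sub_rev (ι c1) (j (K (κ c)))]
  have b2 : ‖ι (c2 - y * c1)‖ ≤ 2 * δ := by
    rw [hR.sub hc2M (mul_mem hyM hc1M)]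
    linarith [norm_sub_le_norm_sub_add_norm_sub (ι c2) (j (K (κ c1))) (ι (y * c1)),
      norm_sub_rev (ι (y * c1)) (j (K (κ c1)))]
  have b3 : ‖ι (w.1 - c - c2)‖ ≤ 4 * δ := by
    rw [hR.sub (sub_mem hwM hcM) hc2M, hR.sub hwM hcM]
    have e := congrArg (fun T : W →L[ℂ] W => j (T (κ w.1))) hK2
    simp only [add_apply, mul_apply_eq_comp, one_apply_eq_self, map_add, hR.emb _ w.2] at e
    calc ‖ι w.1 - ι c - ι c2‖ = ‖((j (iK (κ w.1))) - ι c) +
          ((j (K (K (iK (κ w.1))))) - ι c2)‖ := by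
            congr 1; rw [← e]; abel
      _ ≤ ‖(j (iK (κ w.1))) - ι c‖ +
          ‖(j (K (K (iK (κ w.1))))) - ι c2‖ := norm_add_le _ _
      _ ≤ 4 * δ := by
          rw [norm_sub_rev]
          linarith [norm_sub_rev (ι c2) (j (K (K (iK (κ w.1)))))]
  have edec : cfc gfun y * w.1 - ((2 : ℝ) : ℂ) • c1 = cfc gfun y * (w.1 - c - c2) +
      (((y * c - c1) + (y * c - c1)) + (cfc gfun y * (c2 - y * c1) +
        cfc gfun y * y * (c1 - y * c))) := by
    have e := congrArg (fun T => T * c) hid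
    simp only [add_mul, mul_assoc] at e
    rw [show ((2 : ℝ) : ℂ) • c1 = c1 + c1 by rw [Complex.coe_smul, two_smul]]
    simp only [mul_sub, mul_assoc]
    rw [eq_sub_of_add_eq e]
    abel
  have m1 := mul_mem hgy (sub_mem (sub_mem hwM hcM) hc2M)
  have m2 := sub_mem (mul_mem hyM hcM) hc1M
  have m3 := mul_mem hgy (sub_mem hc2M (mul_mem hyM hc1M))
  have m4 := mul_mem (mul_mem hgy hyM) (sub_mem hc1M (mul_mem hyM hcM))
  rw [← hR.sub (mul_mem hgy hwM) (smul_mem' M hc1M _), edec,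
    hR.add _ m1 _ (add_mem (add_mem m2 m2) (add_mem m3 m4)),
    hR.add _ (add_mem m2 m2) _ (add_mem m3 m4), hR.add _ m2 _ m2, hR.add _ m3 _ m4]
  have n1 : ‖ι (cfc gfun y * (w.1 - c - c2))‖ ≤ 4 * δ :=
    (hR.left hφ hgy (sub_mem (sub_mem hwM hcM) hc2M)).trans
      ((mul_le_of_le_one_left (norm_nonneg _) hgyn).trans b3)
  have n3 : ‖ι (cfc gfun y * (c2 - y * c1))‖ ≤ 2 * δ :=
    (hR.left hφ hgy (sub_mem hc2M (mul_mem hyM hc1M))).trans
      ((mul_le_of_le_one_left (norm_nonneg _) hgyn).trans b2)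
  have n4 : ‖ι (cfc gfun y * y * (c1 - y * c))‖ ≤ 4 * δ := by
    refine (hR.left hφ (mul_mem hgy hyM) (sub_mem hc1M (mul_mem hyM hcM))).trans ?_
    rw [show ι (c1 - y * c) = -ι (y * c - c1) by
      rw [hR.sub hc1M (mul_mem hyM hcM), hR.sub (mul_mem hyM hcM) hc1M, neg_sub], norm_neg]
    calc ‖cfc gfun y * y‖ * ‖ι (y * c - c1)‖ ≤ 2 * (2 * δ) := by gcongr
      _ = 4 * δ := by ring
  linarith [norm_add_le (ι (cfc gfun y * (w.1 - c - c2))) ((ι (y * c - c1) + ι (y * c - c1)) +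
    (ι (cfc gfun y * (c2 - y * c1)) + ι (cfc gfun y * y * (c1 - y * c)))),
    norm_add_le (ι (y * c - c1) + ι (y * c - c1))
      (ι (cfc gfun y * (c2 - y * c1)) + ι (cfc gfun y * y * (c1 - y * c))),
    norm_add_le (ι (y * c - c1)) (ι (y * c - c1)),
    norm_add_le (ι (cfc gfun y * (c2 - y * c1))) (ι (cfc gfun y * y * (c1 - y * c)))]

/-- The closeness of `y` to `K` on a list. -/
def IsGood (_x : H →L[ℂ] H) (ι : (H →L[ℂ] H) → G) (j : W →ₗᵢ[ℂ] G) (κ : (H →L[ℂ] H) → W)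
    (K : W →L[ℂ] W) (k : ℕ) (c : Fin k → {s : H →L[ℂ] H // IsSum M A s}) (δ : ℝ)
    (y : H →L[ℂ] H) : Prop :=
  ∀ i, ‖ι (y * (c i).1) - j (K (κ (c i).1))‖ ≤ δ

theorem exists_pow (hR : IsRep M A φ x ι j κ K) (hφ : IsCState M A φ) {gK iK : W →L[ℂ] W}
    (hgKn : ‖gK‖ ≤ 1) (hK1 : gK = (2 : ℝ) • (K * iK)) (hK2 : iK + K * (K * iK) = 1) :
    ∀ (n : ℕ) (η : ℝ), 0 < η → ∃ (k : ℕ) (c : Fin k → {s // IsSum M A s}) (δ : ℝ)
      (w : {s // IsSum M A s}), 0 < δ ∧ ‖ι w.1 - j ((gK ^ n) (κ 1))‖ ≤ η ∧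
      ∀ y, IsSum M A y → IsSelfAdjoint y → IsGood x ι j κ K k c δ y →
        ‖ι (cfc gfun y ^ n) - ι w.1‖ ≤ η := by
  have hA := hφ.masa
  have hgyM : ∀ {y}, y ∈ M → cfc gfun y ∈ M := fun hyM =>
    mem_of_commute_commutant M fun z hz =>
      (Commute.cfc_real (VonNeumannAlgebra.mem_commutant_iff.1 hz _ hyM) gfun).symm
  intro n
  induction n with
  | zero =>
    intro η hη
    refine ⟨0, Fin.elim0, 1, ⟨1, IsSum.of_memA hA (one_mem A)⟩, one_pos, ?_, fun y _ _ _ => ?_⟩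
    · rw [pow_zero, one_apply_eq_self, hR.emb _ (IsSum.of_memA hA (one_mem A))]
      simpa using hη.le
    · simpa using hη.le
  | succ n ih =>
    intro η hη
    obtain ⟨k, c, δ, w, hδ, hw, hwy⟩ := ih (η / 2) (half_pos hη)
    obtain ⟨d, d1, δ', w', hδ', hw', hwy'⟩ := hR.step hφ hK1 hK2 w (half_pos hη)
    refine ⟨k + 2, Fin.append c ![d, d1], min δ δ', w', lt_min hδ hδ', ?_, ?_⟩
    · rw [pow_succ', mul_apply_eq_comp]
      have h' : ‖j (gK (κ w.1)) - j (gK ((gK ^ n) (κ 1)))‖ ≤ η / 2 := by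
        rw [← map_sub, ← map_sub, j.norm_map]
        refine ((gK.le_opNorm _).trans (mul_le_of_le_one_left (norm_nonneg _) hgKn)).trans ?_
        rw [← j.norm_map, map_sub, hR.emb _ w.2]
        exact hw
      linarith [norm_sub_le_norm_sub_add_norm_sub (ι w'.1) (j (gK (κ w.1)))
        (j (gK ((gK ^ n) (κ 1))))]
    · intro y hy hys hyg
      have hyM := hy.mem hA
      have hgy := hgyM hyM
      have g1 : IsGood x ι j κ K k c δ y := fun i => by
        have h := hyg (Fin.castAdd 2 i)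
        simp only [Fin.append_left] at h
        exact h.trans (min_le_left _ _)
      have g2 : IsGood x ι j κ K 2 ![d, d1] δ' y := fun i => by
        have h := hyg (Fin.natAdd k i)
        simp only [Fin.append_right] at h
        exact h.trans (min_le_right _ _)
      have hwM := w.2.mem hA
      have hpM : cfc gfun y ^ n ∈ M := pow_mem hgy n
      have h1 : ‖ι (cfc gfun y ^ (n + 1)) - ι (cfc gfun y * w.1)‖ ≤ η / 2 := by
        rw [← hR.sub (pow_mem hgy _) (mul_mem hgy hwM), pow_succ', ← mul_sub]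
        refine (hR.left hφ hgy (sub_mem hpM hwM)).trans ?_
        refine (mul_le_of_le_one_left (norm_nonneg _) (norm_cfc_le zero_le_one fun t _ => by
          rw [Real.norm_eq_abs]; exact abs_gfun_le t)).trans ?_
        rw [hR.sub hpM hwM]
        exact hwy y hy hys g1
      linarith [norm_sub_le_norm_sub_add_norm_sub (ι (cfc gfun y ^ (n + 1)))
        (ι (cfc gfun y * w.1)) (ι w'.1), hwy' y hy hys (g2 0) (g2 1)]

theorem exists_poly (hR : IsRep M A φ x ι j κ K) (hφ : IsCState M A φ) {gK iK : W →L[ℂ] W}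
    (hgKn : ‖gK‖ ≤ 1) (hK1 : gK = (2 : ℝ) • (K * iK)) (hK2 : iK + K * (K * iK) = 1) :
    ∀ (p : ℝ[X]) (η : ℝ), 0 < η → ∃ (k : ℕ) (c : Fin k → {s // IsSum M A s}) (δ : ℝ)
      (w : {s // IsSum M A s}), 0 < δ ∧ ‖ι w.1 - j ((aeval gK p) (κ 1))‖ ≤ η ∧
      ∀ y, IsSum M A y → IsSelfAdjoint y → IsGood x ι j κ K k c δ y →
        ‖ι (aeval (cfc gfun y) p) - ι w.1‖ ≤ η := by
  have hA := hφ.masa
  have hgyM : ∀ {y}, y ∈ M → cfc gfun y ∈ M := fun hyM =>
    mem_of_commute_commutant M fun z hz =>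
      (Commute.cfc_real (VonNeumannAlgebra.mem_commutant_iff.1 hz _ hyM) gfun).symm
  intro p
  induction p using Polynomial.induction_on' with
  | monomial n a =>
    intro η hη
    obtain ⟨k, c, δ, w, hδ, hw, hwy⟩ := hR.exists_pow hφ hgKn hK1 hK2 n (η / (|a| + 1)) (by positivity)
    have hb : ∀ r : ℝ, r ≤ η / (|a| + 1) → |a| * r ≤ η := fun r hr => by
      refine (mul_le_mul_of_nonneg_left hr (abs_nonneg a)).trans ?_
      rw [← mul_div_assoc, div_le_iff₀ (by positivity)]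
      nlinarith [abs_nonneg a]
    refine ⟨k, c, δ, ⟨(a : ℂ) • w.1, w.2.smul _⟩, hδ, ?_, fun y hy hys hyg => ?_⟩
    · rw [hR.smul _ (w.2.mem hA), Complex.coe_smul, aeval_monomial, ← Algebra.smul_def]
      rw [smul_apply, ← Complex.coe_smul, ← Complex.coe_smul, map_smul]
      rw [← smul_sub, norm_smul, Complex.norm_real, Real.norm_eq_abs]
      exact hb _ hw
    · rw [aeval_monomial, ← Algebra.smul_def, ← Complex.coe_smul,
        hR.smul _ (pow_mem (hgyM (hy.mem hA)) n), hR.smul _ (w.2.mem hA), ← smul_sub, norm_smul,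
        Complex.norm_real, Real.norm_eq_abs]
      exact hb _ (hwy y hy hys hyg)
  | add p q ihp ihq =>
    intro η hη
    obtain ⟨k, c, δ, w, hδ, hw, hwy⟩ := ihp (η / 2) (half_pos hη)
    obtain ⟨k', c', δ', w', hδ', hw', hwy'⟩ := ihq (η / 2) (half_pos hη)
    refine ⟨k + k', Fin.append c c', min δ δ', ⟨w.1 + w'.1, w.2.add w'.2⟩, lt_min hδ hδ',
      ?_, fun y hy hys hyg => ?_⟩
    · rw [hR.add _ (w.2.mem hA) _ (w'.2.mem hA), map_add, add_apply, map_add,
        add_sub_add_comm]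
      linarith [norm_add_le (ι w.1 - (j ((aeval gK p) (κ 1)))) (ι w'.1 - (j ((aeval gK q) (κ 1))))]
    · have g1 : IsGood x ι j κ K k c δ y := fun i => by
        have h := hyg (Fin.castAdd k' i)
        simp only [Fin.append_left] at h
        exact h.trans (min_le_left _ _)
      have g2 : IsGood x ι j κ K k' c' δ' y := fun i => by
        have h := hyg (Fin.natAdd k i)
        simp only [Fin.append_right] at h
        exact h.trans (min_le_right _ _)
      have hm : ∀ p : ℝ[X], aeval (cfc gfun y) p ∈ M := fun p => by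
        induction p using Polynomial.induction_on' with
        | add p q hp hq => rw [map_add]; exact add_mem hp hq
        | monomial n a =>
          rw [aeval_monomial, ← Algebra.smul_def, ← Complex.coe_smul]
          exact smul_mem' M (pow_mem (hgyM (hy.mem hA)) n) _
      rw [map_add, hR.add _ (hm p) _ (hm q), hR.add _ (w.2.mem hA) _ (w'.2.mem hA), add_sub_add_comm]
      linarith [norm_add_le (ι (aeval (cfc gfun y) p) - ι w.1) (ι (aeval (cfc gfun y) q) - ι w'.1),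
        hwy y hy hys g1, hwy' y hy hys g2]

end IsRep

end Vale.Agent.P078.General.Orbit
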