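import Vale.Agent.P078.Single.Atom

/-!
# The Hilbert space of `M` for a centralised state, with the left action of one selfadjoint element
-/

namespace Vale.Agent.P078.General.Orbit

open scoped InnerProductSpace Topology ComplexOrder
open Filter Vale.Agent.P078.General.Single

universe u

variable {H : Type u} [NormedAddCommGroup H] [InnerProductSpace ℂ H] [CompleteSpace H]
variable {M A : VonNeumannAlgebra H} {φ : (H →L[ℂ] H) →ₗ[ℂ] ℂ}

/-- `M` as a linear subspace. -/
def mSub (M : VonNeumannAlgebra H) : Submodule ℂ (H →L[ℂ] H) where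
  carrier := (M : Set (H →L[ℂ] H))
  zero_mem' := zero_mem M
  add_mem' := fun ha hb => add_mem (s := M) ha hb
  smul_mem' := fun c _ hy => smul_mem' M hy c

/-- `M` with the inner product of the state. -/
def PreSpace (_hφ : IsCState M A φ) : Type u := mSub M

section

variable (hφ : IsCState M A φ)

noncomputable instance : AddCommGroup (PreSpace hφ) := inferInstanceAs (AddCommGroup (mSub M))
noncomputable instance : Module ℂ (PreSpace hφ) := inferInstanceAs (Module ℂ (mSub M))

/-- The identification of `M` with the pre-inner product space. -/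
noncomputable def toPre : mSub M ≃ₗ[ℂ] PreSpace hφ := LinearEquiv.refl ℂ _

/-- The operator of a vector. -/
noncomputable def ofPre (a : PreSpace hφ) : H →L[ℂ] H := ((toPre hφ).symm a : mSub M).1

theorem ofPre_mem (a : PreSpace hφ) : ofPre hφ a ∈ M := ((toPre hφ).symm a).2

theorem ofPre_add (a b : PreSpace hφ) : ofPre hφ (a + b) = ofPre hφ a + ofPre hφ b := rfl

theorem ofPre_smul (c : ℂ) (a : PreSpace hφ) : ofPre hφ (c • a) = c • ofPre hφ a := rfl

/-- The semi-inner product. -/
noncomputable abbrev preCore : PreInnerProductSpace.Core ℂ (PreSpace hφ) where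
  inner a b := φ (star (ofPre hφ a) * ofPre hφ b)
  conj_inner_symm a b := by
    rw [← hφ.map_star (mul_mem (star_mem (ofPre_mem hφ b)) (ofPre_mem hφ a)), star_mul, star_star]
  re_inner_nonneg a := hφ.sq_nonneg' (ofPre_mem hφ a)
  add_left a b c := by rw [ofPre_add, star_add, add_mul, map_add]
  smul_left a b c := by
    rw [ofPre_smul, star_smul, smul_mul_assoc, map_smul, smul_eq_mul, Complex.star_def]

noncomputable instance : SeminormedAddCommGroup (PreSpace hφ) :=
  InnerProductSpace.Core.toSeminormedAddCommGroup (c := preCore hφ)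

noncomputable instance : InnerProductSpace ℂ (PreSpace hφ) :=
  InnerProductSpace.ofCore (preCore hφ)

theorem preInner_def (a b : PreSpace hφ) :
    ⟪a, b⟫_ℂ = φ (star (ofPre hφ a) * ofPre hφ b) := rfl

theorem preNorm_sq (a : PreSpace hφ) : ‖a‖ ^ 2 = Single.sq φ (ofPre hφ a) := by
  rw [← inner_self_eq_norm_sq (𝕜 := ℂ), preInner_def]
  rfl

end

/-- A Hilbert space containing `M` with the inner product of `φ`, in which a selfadjoint element
acts by a selfadjoint operator of at most its norm. -/
theorem exists_space (hφ : IsCState M A φ) {x : H →L[ℂ] H} (hx : x ∈ M) (hxs : IsSelfAdjoint x) :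
    ∃ (G : Type u) (_ : NormedAddCommGroup G) (_ : InnerProductSpace ℂ G) (_ : CompleteSpace G)
      (ι : (H →L[ℂ] H) → G) (X : G →L[ℂ] G),
      (∀ a ∈ M, ∀ b ∈ M, ι (a + b) = ι a + ι b) ∧ (∀ a ∈ M, ∀ c : ℂ, ι (c • a) = c • ι a) ∧
      (∀ a ∈ M, ∀ b ∈ M, ⟪ι a, ι b⟫_ℂ = φ (star a * b)) ∧
      (∀ a ∈ M, X (ι a) = ι (x * a)) ∧ IsSelfAdjoint X ∧ ‖X‖ ≤ ‖x‖ := by
  classical
  let L0 : PreSpace hφ →ₗ[ℂ] PreSpace hφ :=
    { toFun := fun a => toPre hφ ⟨x * ofPre hφ a, (mul_mem (s := M) hx (ofPre_mem hφ a) : x * ofPre hφ a ∈ M)⟩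
      map_add' := fun a b => by
        rw [← map_add]
        congr 1
        exact Subtype.ext (by simp [ofPre_add, mul_add])
      map_smul' := fun c a => by
        rw [RingHom.id_apply, ← map_smul]
        congr 1
        exact Subtype.ext (by simp [ofPre_smul]) }
  have hL0 : ∀ a, ofPre hφ (L0 a) = x * ofPre hφ a := fun a => rfl
  let L : PreSpace hφ →L[ℂ] PreSpace hφ := L0.mkContinuous ‖x‖ fun a => by
    refine le_of_pow_le_pow_left₀ two_ne_zero (by positivity) ?_
    rw [mul_pow, preNorm_sq, preNorm_sq, hL0]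
    exact hφ.sq_mul_left hx (ofPre_mem hφ a)
  have hLn : ‖L‖ ≤ ‖x‖ := L0.mkContinuous_norm_le (norm_nonneg _) _
  have hLs : ∀ a b, ⟪L a, b⟫_ℂ = ⟪a, L b⟫_ℂ := fun a b => by
    rw [preInner_def, preInner_def, show ofPre hφ (L a) = x * ofPre hφ a from rfl,
      show ofPre hφ (L b) = x * ofPre hφ b from rfl, star_mul, hxs.star_eq, mul_assoc]
  refine ⟨UniformSpace.Completion (PreSpace hφ), inferInstance, inferInstance, inferInstance,
    fun a => if ha : a ∈ M then (toPre hφ ⟨a, ha⟩ : UniformSpace.Completion (PreSpace hφ)) else 0,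
    L.completion, ?_, ?_, ?_, ?_, ?_, ?_⟩
  · intro a ha b hb
    beta_reduce
    rw [dif_pos ha, dif_pos hb, dif_pos (add_mem ha hb), ← UniformSpace.Completion.coe_add,
      ← map_add]
    rfl
  · intro a ha c
    beta_reduce
    rw [dif_pos ha, dif_pos (smul_mem' M ha c), ← UniformSpace.Completion.coe_smul, ← map_smul]
    rfl
  · intro a ha b hb
    beta_reduce
    rw [dif_pos ha, dif_pos hb, UniformSpace.Completion.inner_coe, preInner_def]
    rfl
  · intro a ha
    beta_reduce
    rw [dif_pos ha, dif_pos (mul_mem hx ha), ContinuousLinearMap.completion_apply_coe]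
    rfl
  · refine ContinuousLinearMap.isSelfAdjoint_iff_isSymmetric.2 fun a b => ?_
    induction a, b using UniformSpace.Completion.induction_on₂ with
    | hp => apply isClosed_eq <;> fun_prop
    | ih a b => simp [hLs]
  · refine ContinuousLinearMap.opNorm_le_bound _ (norm_nonneg _) fun a => ?_
    induction a using UniformSpace.Completion.induction_on with
    | hp => apply isClosed_le <;> fun_prop
    | ih a =>
      rw [ContinuousLinearMap.completion_apply_coe, UniformSpace.Completion.norm_coe,
        UniformSpace.Completion.norm_coe]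
      exact (L.le_opNorm a).trans (mul_le_mul_of_nonneg_right hLn (norm_nonneg _))

end Vale.Agent.P078.General.Orbit
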